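import Vale.Agent.P092.H828.EndCore

/-!
P092 (helper828), project B, block B-END: finitely many commuting covariant families of
projections.  `Good` = a commuting family `PP` of projections, stable under conjugation by the two
representations, with a nondegenerate part `BB` whose elements are orthogonal to their translates
by the elements outside `N`.  Products of commuting good families are good.
-/

set_option linter.all false

open scoped InnerProductSpace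
open Filter Topology ContinuousLinearMap

namespace Vale.Agent.P092.H828

variable {E : Type*} [NormedAddCommGroup E] [InnerProductSpace ℂ E] [CompleteSpace E]
variable {X Γ : Type*} [Group X] [Group Γ]

/-- A good family of projections. -/
structure Good (R : X → (E →L[ℂ] E)) (V : Γ → (E →L[ℂ] E)) (PP BB : Set (E →L[ℂ] E))
    (N : Set X) : Prop where
  sub : BB ⊆ PP
  idem : ∀ p ∈ PP, p * p = p
  adj : ∀ p ∈ PP, adjoint p = p
  comm : ∀ p ∈ PP, ∀ q ∈ PP, p * q = q * p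
  cV : ∀ g, ∀ p ∈ PP, V g * p * V g⁻¹ ∈ PP
  cR : ∀ x, ∀ p ∈ PP, R x * p * R x⁻¹ ∈ PP
  nd : ∀ v, v ≠ 0 → ∃ p ∈ BB, p v ≠ 0
  orth : ∀ p ∈ BB, ∀ x, x ∉ N → p * (R x * p * R x⁻¹) = 0

theorem conj_mul {Y : Type*} [Group Y] {R : Y → (E →L[ℂ] E)} (h : URep R) (x : Y)
    (p q : E →L[ℂ] E) : R x * (p * q) * R x⁻¹ = (R x * p * R x⁻¹) * (R x * q * R x⁻¹) := by
  have h1 : R x⁻¹ * R x = 1 := by rw [← h.mul, inv_mul_cancel, h.one]
  calc R x * (p * q) * R x⁻¹ = R x * p * 1 * q * R x⁻¹ := by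
        simp only [mul_assoc, one_mul]
    _ = _ := by
        rw [← h1]
        simp only [mul_assoc]

/-- Products of commuting good families. -/
theorem Good.mul {R : X → (E →L[ℂ] E)} {V : Γ → (E →L[ℂ] E)} (hR : URep R) (hV : URep V)
    {PP BB PP' BB' : Set (E →L[ℂ] E)} {N N' : Set X} (h : Good R V PP BB N)
    (h' : Good R V PP' BB' N') (hc : ∀ p ∈ PP, ∀ q ∈ PP', p * q = q * p) :
    Good R V {T | ∃ p ∈ PP, ∃ q ∈ PP', T = p * q} {T | ∃ p ∈ BB, ∃ q ∈ BB', T = p * q}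
      (N ∩ N') where
  sub := by
    rintro T ⟨p, hp, q, hq, rfl⟩
    exact ⟨p, h.sub hp, q, h'.sub hq, rfl⟩
  idem := by
    rintro T ⟨p, hp, q, hq, rfl⟩
    calc p * q * (p * q) = p * (q * p) * q := by simp only [mul_assoc]
      _ = (p * p) * (q * q) := by rw [← hc p hp q hq]; simp only [mul_assoc]
      _ = p * q := by rw [h.idem p hp, h'.idem q hq]
  adj := by
    rintro T ⟨p, hp, q, hq, rfl⟩
    rw [← star_eq_adjoint, star_mul, star_eq_adjoint, star_eq_adjoint, h.adj p hp, h'.adj q hq,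
      hc p hp q hq]
  comm := by
    rintro T ⟨p, hp, q, hq, rfl⟩ S ⟨p', hp', q', hq', rfl⟩
    calc p * q * (p' * q') = p * (q * p') * q' := by simp only [mul_assoc]
      _ = (p * p') * (q * q') := by rw [← hc p' hp' q hq]; simp only [mul_assoc]
      _ = (p' * p) * (q' * q) := by rw [h.comm p hp p' hp', h'.comm q hq q' hq']
      _ = p' * (p * q') * q := by simp only [mul_assoc]
      _ = p' * q' * (p * q) := by rw [hc p hp q' hq']; simp only [mul_assoc]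
  cV := by
    rintro g T ⟨p, hp, q, hq, rfl⟩
    exact ⟨_, h.cV g p hp, _, h'.cV g q hq, conj_mul hV g p q⟩
  cR := by
    rintro x T ⟨p, hp, q, hq, rfl⟩
    exact ⟨_, h.cR x p hp, _, h'.cR x q hq, conj_mul hR x p q⟩
  nd := by
    intro v hv
    obtain ⟨q, hq, hqv⟩ := h'.nd v hv
    obtain ⟨p, hp, hpv⟩ := h.nd _ hqv
    exact ⟨p * q, ⟨p, hp, q, hq, rfl⟩, hpv⟩
  orth := by
    rintro T ⟨p, hp, q, hq, rfl⟩ x hx
    have hp1 := h.sub hp
    have hq1 := h'.sub hq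
    have hp2 := h.cR x p hp1
    have hq2 := h'.cR x q hq1
    rw [conj_mul hR]
    have e1 : p * q * ((R x * p * R x⁻¹) * (R x * q * R x⁻¹)) =
        (p * (R x * p * R x⁻¹)) * (q * (R x * q * R x⁻¹)) := by
      generalize R x * p * R x⁻¹ = p' at hp2 ⊢
      generalize R x * q * R x⁻¹ = q' at hq2 ⊢
      calc p * q * (p' * q') = p * (q * p') * q' := by simp only [mul_assoc]
        _ = (p * p') * (q * q') := by rw [← hc p' hp2 q hq1]; simp only [mul_assoc]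
    rw [e1]
    by_cases h1 : x ∈ N
    · have h2 : x ∉ N' := fun h2 => hx ⟨h1, h2⟩
      rw [h'.orth q hq x h2, mul_zero]
    · rw [h.orth p hp x h1, zero_mul]

/-- **B-END**: a good family with `N ⊆ {1}`. -/
theorem Good.end_thm {R : X → (E →L[ℂ] E)} {V : Γ → (E →L[ℂ] E)} {ξ : E} (h0 : ξ ≠ 0)
    (hR : URep R) (hW : Wan R) (hV : URep V) (hVR : ∀ g x, V g * R x = R x * V g) {PP BB : Set (E →L[ℂ] E)} {N : Set X}
    (h : Good R V PP BB N) (hN : ∀ x ∈ N, x = 1) :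
    ∃ (F : E →L[ℂ] E) (w : E) (δ : Γ →* X) (χ : Γ →* ℂ), F ∈ BB ∧ Reg R w ∧ F w = w ∧
      (∀ g, ‖χ g‖ = 1) ∧ ∀ g, V g w = χ g • R (δ g)⁻¹ w := by
  obtain ⟨F, hF, hFξ⟩ := h.nd ξ h0
  have hF1 := h.sub hF
  have hF0 : F ≠ 0 := fun h1 => hFξ (by rw [h1]; rfl)
  obtain ⟨w, δ, χ, h1, h2, h3, h4⟩ := end_core' hR hW hV hVR (h.idem F hF1) (h.adj F hF1) hF0
    (fun x hx => h.orth F hF x fun h1 => hx (hN x h1))
    (fun g x => h.comm _ (h.cV g F hF1) _ (h.cR x F hF1))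
  exact ⟨F, w, δ, χ, hF, h1, h2, h3, h4⟩

/-- A covariant family of projections on the compact open subsets of a topological group: left
translation by `l`, right translation by `r`. -/
structure CovProj {H : Type*} [Group H] [TopologicalSpace H] (R : X → (E →L[ℂ] E))
    (V : Γ → (E →L[ℂ] E)) (l : Γ → H) (r : X → H) (P : Set H → (E →L[ℂ] E)) : Prop where
  idem : ∀ C, IsCompact C → IsOpen C → P C * P C = P C
  adj : ∀ C, IsCompact C → IsOpen C → adjoint (P C) = P C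
  comm : ∀ C D, IsCompact C → IsOpen C → IsCompact D → IsOpen D → P C * P D = P D * P C
  disj : ∀ C D, IsCompact C → IsOpen C → IsCompact D → IsOpen D → Disjoint C D → P C * P D = 0
  nd : ∀ K : Subgroup H, IsCompact (K : Set H) → IsOpen (K : Set H) → ∀ v : E,
    (∀ h : H, P ((fun y => h * y) '' (K : Set H)) v = 0) → v = 0
  cV : ∀ g C, IsCompact C → IsOpen C → V g * P C * V g⁻¹ = P ((fun y => l g * y) '' C)
  cR : ∀ x C, IsCompact C → IsOpen C → R x * P C * R x⁻¹ = P ((fun y => y * (r x)⁻¹) '' C)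

/-- The good family of a covariant family of projections and a compact open subgroup. -/
theorem CovProj.good {H : Type*} [Group H] [TopologicalSpace H] [IsTopologicalGroup H]
    {R : X → (E →L[ℂ] E)} {V : Γ → (E →L[ℂ] E)} {l : Γ → H} {r : X → H}
    {P : Set H → (E →L[ℂ] E)} (h : CovProj R V l r P) (K : Subgroup H)
    (hK : IsCompact (K : Set H)) (hKo : IsOpen (K : Set H)) :
    Good R V {T | ∃ C : Set H, IsCompact C ∧ IsOpen C ∧ T = P C}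
      {T | ∃ y : H, T = P ((fun z => y * z) '' (K : Set H))} {x | r x ∈ K} := by
  have hL : ∀ (y : H) (C : Set H), IsCompact C → IsOpen C →
      IsCompact ((fun z => y * z) '' C) ∧ IsOpen ((fun z => y * z) '' C) := fun y C h1 h2 =>
    ⟨h1.image (continuous_const_mul y), (isOpenMap_mul_left y) _ h2⟩
  have hRt : ∀ (y : H) (C : Set H), IsCompact C → IsOpen C →
      IsCompact ((fun z => z * y) '' C) ∧ IsOpen ((fun z => z * y) '' C) := fun y C h1 h2 =>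
    ⟨h1.image (continuous_mul_const y), (isOpenMap_mul_right y) _ h2⟩
  refine ⟨?_, ?_, ?_, ?_, ?_, ?_, ?_, ?_⟩
  · rintro T ⟨y, rfl⟩
    exact ⟨_, (hL y _ hK hKo).1, (hL y _ hK hKo).2, rfl⟩
  · rintro T ⟨C, h1, h2, rfl⟩
    exact h.idem C h1 h2
  · rintro T ⟨C, h1, h2, rfl⟩
    exact h.adj C h1 h2
  · rintro T ⟨C, h1, h2, rfl⟩ S ⟨D, h3, h4, rfl⟩
    exact h.comm C D h1 h2 h3 h4
  · rintro g T ⟨C, h1, h2, rfl⟩
    exact ⟨_, (hL _ C h1 h2).1, (hL _ C h1 h2).2, h.cV g C h1 h2⟩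
  · rintro x T ⟨C, h1, h2, rfl⟩
    exact ⟨_, (hRt _ C h1 h2).1, (hRt _ C h1 h2).2, h.cR x C h1 h2⟩
  · intro v hv
    by_contra hn
    push Not at hn
    exact hv (h.nd K hK hKo v fun y => hn _ ⟨y, rfl⟩)
  · rintro T ⟨y, rfl⟩ x hx
    have h1 := hL y _ hK hKo
    have h2 := hRt (r x)⁻¹ _ h1.1 h1.2
    rw [h.cR x _ h1.1 h1.2]
    refine h.disj _ _ h1.1 h1.2 h2.1 h2.2 ?_
    rw [Set.disjoint_left]
    rintro z ⟨a, ha, rfl⟩ ⟨_, ⟨b, hb, rfl⟩, hz⟩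
    refine hx ?_
    have h3 : y * b * (r x)⁻¹ = y * a := hz
    have h4 : r x = a⁻¹ * b := by
      rw [mul_inv_eq_iff_eq_mul] at h3
      have h5 : y * b = y * (a * r x) := by rw [h3, mul_assoc]
      have h6 := mul_left_cancel h5
      rw [h6]
      group
    change r x ∈ K
    rw [h4]
    exact K.mul_mem (K.inv_mem ha) hb

/-- **B-END**, four commuting families (two legs, two places). -/
theorem end_four' {R : X → (E →L[ℂ] E)} {V : Γ → (E →L[ℂ] E)} {ξ : E} (h0 : ξ ≠ 0)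
    (hU : URep R) (hW : Wan R) (hV : URep V) (hVR : ∀ g x, V g * R x = R x * V g)
    {H₁ H₂ H₃ H₄ : Type*} [Group H₁] [TopologicalSpace H₁] [IsTopologicalGroup H₁]
    [Group H₂] [TopologicalSpace H₂] [IsTopologicalGroup H₂]
    [Group H₃] [TopologicalSpace H₃] [IsTopologicalGroup H₃]
    [Group H₄] [TopologicalSpace H₄] [IsTopologicalGroup H₄]
    {l₁ : Γ → H₁} {l₂ : Γ → H₂} {l₃ : Γ → H₃} {l₄ : Γ → H₄}
    {r₁ : X → H₁} {r₂ : X → H₂} {r₃ : X → H₃} {r₄ : X → H₄}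
    {P₁ : Set H₁ → (E →L[ℂ] E)} {P₂ : Set H₂ → (E →L[ℂ] E)} {P₃ : Set H₃ → (E →L[ℂ] E)}
    {P₄ : Set H₄ → (E →L[ℂ] E)}
    (h₁ : CovProj R V l₁ r₁ P₁) (h₂ : CovProj R V l₂ r₂ P₂) (h₃ : CovProj R V l₃ r₃ P₃)
    (h₄ : CovProj R V l₄ r₄ P₄)
    (h12 : ∀ C D, IsCompact C → IsOpen C → IsCompact D → IsOpen D → P₁ C * P₂ D = P₂ D * P₁ C)
    (h13 : ∀ C D, IsCompact C → IsOpen C → IsCompact D → IsOpen D → P₁ C * P₃ D = P₃ D * P₁ C)
    (h14 : ∀ C D, IsCompact C → IsOpen C → IsCompact D → IsOpen D → P₁ C * P₄ D = P₄ D * P₁ C)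
    (h23 : ∀ C D, IsCompact C → IsOpen C → IsCompact D → IsOpen D → P₂ C * P₃ D = P₃ D * P₂ C)
    (h24 : ∀ C D, IsCompact C → IsOpen C → IsCompact D → IsOpen D → P₂ C * P₄ D = P₄ D * P₂ C)
    (h34 : ∀ C D, IsCompact C → IsOpen C → IsCompact D → IsOpen D → P₃ C * P₄ D = P₄ D * P₃ C)
    (K₁ : Subgroup H₁) (K₂ : Subgroup H₂) (K₃ : Subgroup H₃) (K₄ : Subgroup H₄)
    (k₁ : IsCompact (K₁ : Set H₁)) (k₂ : IsCompact (K₂ : Set H₂)) (k₃ : IsCompact (K₃ : Set H₃))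
    (k₄ : IsCompact (K₄ : Set H₄)) (o₁ : IsOpen (K₁ : Set H₁)) (o₂ : IsOpen (K₂ : Set H₂))
    (o₃ : IsOpen (K₃ : Set H₃)) (o₄ : IsOpen (K₄ : Set H₄))
    (hK : ∀ x, r₁ x ∈ K₁ → r₂ x ∈ K₂ → r₃ x ∈ K₃ → r₄ x ∈ K₄ → x = 1) :
    ∃ (w : E) (δ : Γ →* X) (χ : Γ →* ℂ), Reg R w ∧ (∀ g, ‖χ g‖ = 1) ∧
      ∀ g, V g w = χ g • R (δ g)⁻¹ w := by
  have g12 := (h₁.good K₁ k₁ o₁).mul hU hV (h₂.good K₂ k₂ o₂) (by
    rintro p ⟨C, a1, a2, rfl⟩ q ⟨D, b1, b2, rfl⟩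
    exact h12 C D a1 a2 b1 b2)
  have g34 := (h₃.good K₃ k₃ o₃).mul hU hV (h₄.good K₄ k₄ o₄) (by
    rintro p ⟨C, a1, a2, rfl⟩ q ⟨D, b1, b2, rfl⟩
    exact h34 C D a1 a2 b1 b2)
  have g := g12.mul hU hV g34 (by
    rintro p ⟨_, ⟨C, a1, a2, rfl⟩, _, ⟨D, b1, b2, rfl⟩, rfl⟩ q
      ⟨_, ⟨C', a3, a4, rfl⟩, _, ⟨D', b3, b4, rfl⟩, rfl⟩
    have e13 := h13 C C' a1 a2 a3 a4
    have e14 := h14 C D' a1 a2 b3 b4
    have e23 := h23 D C' b1 b2 a3 a4
    have e24 := h24 D D' b1 b2 b3 b4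
    generalize P₁ C = p1 at *
    generalize P₂ D = p2 at *
    generalize P₃ C' = p3 at *
    generalize P₄ D' = p4 at *
    have c1 : Commute p1 (p3 * p4) := Commute.mul_right e13 e14
    have c2 : Commute p2 (p3 * p4) := Commute.mul_right e23 e24
    exact Commute.mul_left c1 c2)
  obtain ⟨F, w, δ, χ, _, a, _, b, c⟩ := g.end_thm h0 hU hW hV hVR (by
    rintro x ⟨⟨a, b⟩, ⟨c, d⟩⟩
    exact hK x a b c d)
  exact ⟨w, δ, χ, a, b, c⟩

/-- **B-END**, four commuting families, regular representation. -/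
theorem end_four {R : X → (E →L[ℂ] E)} {V : Γ → (E →L[ℂ] E)} {ξ : E} (hR : Reg R ξ)
    (hV : URep V) (hVR : ∀ g x, V g * R x = R x * V g)
    {H₁ H₂ H₃ H₄ : Type*} [Group H₁] [TopologicalSpace H₁] [IsTopologicalGroup H₁]
    [Group H₂] [TopologicalSpace H₂] [IsTopologicalGroup H₂]
    [Group H₃] [TopologicalSpace H₃] [IsTopologicalGroup H₃]
    [Group H₄] [TopologicalSpace H₄] [IsTopologicalGroup H₄]
    {l₁ : Γ → H₁} {l₂ : Γ → H₂} {l₃ : Γ → H₃} {l₄ : Γ → H₄}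
    {r₁ : X → H₁} {r₂ : X → H₂} {r₃ : X → H₃} {r₄ : X → H₄}
    {P₁ : Set H₁ → (E →L[ℂ] E)} {P₂ : Set H₂ → (E →L[ℂ] E)} {P₃ : Set H₃ → (E →L[ℂ] E)}
    {P₄ : Set H₄ → (E →L[ℂ] E)}
    (h₁ : CovProj R V l₁ r₁ P₁) (h₂ : CovProj R V l₂ r₂ P₂) (h₃ : CovProj R V l₃ r₃ P₃)
    (h₄ : CovProj R V l₄ r₄ P₄)
    (h12 : ∀ C D, IsCompact C → IsOpen C → IsCompact D → IsOpen D → P₁ C * P₂ D = P₂ D * P₁ C)
    (h13 : ∀ C D, IsCompact C → IsOpen C → IsCompact D → IsOpen D → P₁ C * P₃ D = P₃ D * P₁ C)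
    (h14 : ∀ C D, IsCompact C → IsOpen C → IsCompact D → IsOpen D → P₁ C * P₄ D = P₄ D * P₁ C)
    (h23 : ∀ C D, IsCompact C → IsOpen C → IsCompact D → IsOpen D → P₂ C * P₃ D = P₃ D * P₂ C)
    (h24 : ∀ C D, IsCompact C → IsOpen C → IsCompact D → IsOpen D → P₂ C * P₄ D = P₄ D * P₂ C)
    (h34 : ∀ C D, IsCompact C → IsOpen C → IsCompact D → IsOpen D → P₃ C * P₄ D = P₄ D * P₃ C)
    (K₁ : Subgroup H₁) (K₂ : Subgroup H₂) (K₃ : Subgroup H₃) (K₄ : Subgroup H₄)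
    (k₁ : IsCompact (K₁ : Set H₁)) (k₂ : IsCompact (K₂ : Set H₂)) (k₃ : IsCompact (K₃ : Set H₃))
    (k₄ : IsCompact (K₄ : Set H₄)) (o₁ : IsOpen (K₁ : Set H₁)) (o₂ : IsOpen (K₂ : Set H₂))
    (o₃ : IsOpen (K₃ : Set H₃)) (o₄ : IsOpen (K₄ : Set H₄))
    (hK : ∀ x, r₁ x ∈ K₁ → r₂ x ∈ K₂ → r₃ x ∈ K₃ → r₄ x ∈ K₄ → x = 1) :
    ∃ (w : E) (δ : Γ →* X) (χ : Γ →* ℂ), Reg R w ∧ (∀ g, ‖χ g‖ = 1) ∧
      ∀ g, V g w = χ g • R (δ g)⁻¹ w := by
  have h0 : ξ ≠ 0 := by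
    intro h1
    have := hR.norm_one
    rw [h1, norm_zero] at this
    exact zero_ne_one this
  exact end_four' h0 hR.toURep hR.wan hV hVR h₁ h₂ h₃ h₄ h12 h13 h14 h23 h24 h34 K₁ K₂ K₃ K₄ k₁ k₂
    k₃ k₄ o₁ o₂ o₃ o₄ hK

end Vale.Agent.P092.H828
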