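import Vale.Agent.P092.H828.EndT
import Vale.Agent.P092.SR.Blocks

/-!
P092 (helper828): the literal `EndStmt` of `SR/Blocks.lean`, and the version for all amplifications.
-/

set_option linter.all false

open scoped InnerProductSpace
open Filter Topology ContinuousLinearMap

namespace Vale.Agent.P092.H828

open Vale.Agent.P092.SR

theorem irr_small {Γ G₁ G₂ : Type} [Group Γ] [Group G₁] [Group G₂] [TopologicalSpace G₁]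
    [TopologicalSpace G₂] (hG₁ : GoodGrp G₁) (hG₂ : GoodGrp G₂) {p₁ : Γ →* G₁} {p₂ : Γ →* G₂}
    (h : Irr p₁ p₂) : ∃ (K₁ : Subgroup G₁) (K₂ : Subgroup G₂), COS K₁ ∧ COS K₂ ∧
      ∀ g, p₁ g ∈ K₁ → p₂ g ∈ K₂ → g = 1 :=
  exists_small hG₁ hG₂ h.inj₁ h.disc

/-- [END] -/
theorem endStmt : EndStmt := by
  intro Γ H₁ H₂ ℋ _ _ _ _ _ _ _ _ V R₁ R₂ ξ p₁ q₁ r₁ p₂ q₂ r₂ hT hξ hH₁ hH₂ hp hq hr P₁ Q₁ P₂ Q₂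
    a1 a2 a3 a4 c1 c2 c3 c4 c5 c6
  obtain ⟨w, δ, χ, b1, b2, b3, b4, b5⟩ := end_sr hH₁ hH₂ hT (by
    simp only [Finset.univ_unique, Finset.sum_singleton]
    change ‖ξ ()‖ ^ 2 = 1
    rw [hξ, one_pow]) (fun g => Set.mem_range_self g) (fun g => Set.mem_range_self g) a1 a2 a3 a4 c1 c2 c3 c4 c5 c6
    (irr_small hH₁ hH₂ hq) (irr_small hH₁ hH₂ hr)
  exact ⟨w, b1, fun g => ⟨_, _, χ g, b4 g, b5 g⟩⟩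

/-- [END] for all amplifications: no condition on the weight of the frame. -/
def EndTStmt : Prop :=
  ∀ {ι Γ H₁ H₂ ℋ : Type} [Fintype ι] [Group Γ] [Group H₁] [Group H₂] [TopologicalSpace H₁]
    [TopologicalSpace H₂] [NormedAddCommGroup ℋ] [InnerProductSpace ℂ ℋ] [CompleteSpace ℋ]
    (V R₁ R₂ : Γ →* (ℋ →L[ℂ] ℋ)) (ξ : ι → ℋ) (p₁ q₁ r₁ : Γ →* H₁) (p₂ q₂ r₂ : Γ →* H₂),
    Tri V R₁ R₂ ξ → GoodGrp H₁ → GoodGrp H₂ → Irr p₁ p₂ → Irr q₁ q₂ → Irr r₁ r₂ →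
    ∀ (P₁ Q₁ : Set H₁ → (ℋ →L[ℂ] ℋ)) (P₂ Q₂ : Set H₂ → (ℋ →L[ℂ] ℋ)),
    PFam p₁ q₁ V R₁ (Set.range R₂) P₁ → PFam p₂ q₂ V R₁ (Set.range R₂) P₂ →
    PFam p₁ r₁ V R₂ (Set.range R₁) Q₁ → PFam p₂ r₂ V R₂ (Set.range R₁) Q₂ →
    (∀ C D, CO C → CO D → P₁ C * P₂ D = P₂ D * P₁ C) →
    (∀ C D, CO C → CO D → Q₁ C * Q₂ D = Q₂ D * Q₁ C) →
    (∀ C D, CO C → CO D → P₁ C * Q₁ D = Q₁ D * P₁ C) →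
    (∀ C D, CO C → CO D → P₁ C * Q₂ D = Q₂ D * P₁ C) →
    (∀ C D, CO C → CO D → P₂ C * Q₁ D = Q₁ D * P₂ C) →
    (∀ C D, CO C → CO D → P₂ C * Q₂ D = Q₂ D * P₂ C) →
    ∃ (r : ℕ) (ζ : Fin r → ℋ) (κ : ℝ), 0 < κ ∧ (∀ i, ‖ζ i‖ = 1) ∧
      ∀ g, ∃ i j a b, κ ≤ ‖⟪V g (ζ i), R₁ a (R₂ b (ζ j))⟫_ℂ‖

theorem endTStmt : EndTStmt := by
  intro ι Γ H₁ H₂ ℋ _ _ _ _ _ _ _ _ _ V R₁ R₂ ξ p₁ q₁ r₁ p₂ q₂ r₂ hT hH₁ hH₂ hp hq hr P₁ Q₁ P₂ Q₂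
    a1 a2 a3 a4 c1 c2 c3 c4 c5 c6
  exact end_sr_t hH₁ hH₂ hT (fun g => Set.mem_range_self g) (fun g => Set.mem_range_self g) a1 a2 a3 a4 c1 c2 c3 c4 c5 c6
    (irr_small hH₁ hH₂ hq) (irr_small hH₁ hH₂ hr)

end Vale.Agent.P092.H828
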