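import Vale.Agent.P092.H899.Simple

/-!
P092 (helper828), team C, block [C-KER], group part.  `Par o` is the stabiliser in `SL_n(k)` of the
line of `e_o`.  A subgroup of `Par o` which is normal in `Par o`, contains the radical (the elements
which act as scalars on `k^n / k e_o`) and one more element contains every `g` with `g e_o = e_o`.
-/

set_option linter.all false

namespace Vale.Agent.P092.H828.Par

open Matrix

variable {n : Type*} [Fintype n] [DecidableEq n] {k : Type*} [Field k] (o : n)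

/-- the block of a matrix on the indices different from `o` -/
def blk (g : Matrix n n k) : Matrix {i // i ≠ o} {i // i ≠ o} k := fun i j => g i j

theorem blk_apply (g : Matrix n n k) (i j : {i // i ≠ o}) : blk o g i j = g i j := rfl

theorem mul_split (a b : Matrix n n k) (i j : n) :
    (a * b) i j = a i o * b o j + ∑ l : {l // l ≠ o}, a i l * b l j := by
  rw [Matrix.mul_apply, Fintype.sum_eq_add_sum_subtype_ne (fun l => a i l * b l j) o]

theorem blk_mul {a b : Matrix n n k} (ha : ∀ i, i ≠ o → a i o = 0) :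
    blk o (a * b) = blk o a * blk o b := by
  ext i j
  rw [blk_apply, mul_split o, ha i i.2, zero_mul, zero_add, Matrix.mul_apply]
  rfl

theorem col_mul {a b : Matrix n n k} (hb : ∀ i, i ≠ o → b i o = 0) (i : n) :
    (a * b) i o = a i o * b o o := by
  rw [mul_split o, Finset.sum_eq_zero (fun l _ => by rw [hb l l.2, mul_zero]), add_zero]

theorem blk_one : blk o (1 : Matrix n n k) = 1 := by
  ext i j
  rw [blk_apply, Matrix.one_apply, Matrix.one_apply]
  by_cases h : i = j
  · rw [if_pos h, if_pos (congrArg Subtype.val h)]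
  · rw [if_neg h, if_neg (fun h' => h (Subtype.ext h'))]

theorem det_eq {a : Matrix n n k} (ha : ∀ i, i ≠ o → a i o = 0) :
    a.det = a o o * (blk o a).det := by
  rw [Matrix.twoBlockTriangular_det a (fun i => i = o) (fun i hi j hj => by rw [hj]; exact ha i hi)]
  congr 1
  haveI : Subsingleton {i // i = o} := ⟨fun x y => Subtype.ext (x.2.trans y.2.symm)⟩
  have h := Matrix.det_eq_elem_of_subsingleton (a.toSquareBlockProp fun i => i = o) ⟨o, rfl⟩
  have h' : a.toSquareBlockProp (fun i => i = o) ⟨o, rfl⟩ ⟨o, rfl⟩ = a o o := rfl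
  rw [← h', ← h]
  have e : ∀ (i1 i2 : Fintype {i // i = o}) (d1 d2 : DecidableEq {i // i = o})
      (M : Matrix {i // i = o} {i // i = o} k),
      @Matrix.det _ d1 i1 k _ M = @Matrix.det _ d2 i2 k _ M := by
    intro i1 i2 d1 d2 M
    obtain rfl : i1 = i2 := Subsingleton.elim _ _
    obtain rfl : d1 = d2 := Subsingleton.elim _ _
    rfl
  exact e _ _ _ _ _

/-- the stabiliser of the line of `e_o` -/
def Par : Subgroup (SpecialLinearGroup n k) where
  carrier := {g | ∀ i, i ≠ o → g.1 i o = 0}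
  one_mem' i hi := by
    change (1 : Matrix n n k) i o = 0
    rw [Matrix.one_apply, if_neg hi]
  mul_mem' {a b} ha hb i hi := by
    change (a.1 * b.1) i o = 0
    rw [col_mul o hb, ha i hi, zero_mul]
  inv_mem' {a} ha i hi := by
    have h1 : (a⁻¹ * a).1 = (1 : Matrix n n k) := by rw [inv_mul_cancel]; rfl
    have h2 : ∀ j, (a⁻¹).1 j o * a.1 o o = (1 : Matrix n n k) j o := fun j => by
      rw [← h1]
      exact (col_mul o ha j).symm
    have h3 : a.1 o o ≠ 0 := fun h0 => by
      have := h2 o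
      rw [h0, mul_zero, Matrix.one_apply, if_pos rfl] at this
      exact zero_ne_one this
    have h4 := h2 i
    rw [Matrix.one_apply, if_neg hi] at h4
    exact (mul_eq_zero.1 h4).resolve_right h3

theorem mem_Par {g : SpecialLinearGroup n k} : g ∈ Par o ↔ ∀ i, i ≠ o → g.1 i o = 0 := Iff.rfl

/-- block embedding, as a matrix -/
def embM (s : Matrix {i // i ≠ o} {i // i ≠ o} k) : Matrix n n k := fun i j =>
  if h : i ≠ o ∧ j ≠ o then s ⟨i, h.1⟩ ⟨j, h.2⟩ else if i = j then 1 else 0

theorem embM_pos (s : Matrix {i // i ≠ o} {i // i ≠ o} k) (i j : {i // i ≠ o}) :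
    embM o s i j = s i j := by
  rw [embM, dif_pos ⟨i.2, j.2⟩]

theorem embM_col (s : Matrix {i // i ≠ o} {i // i ≠ o} k) (i : n) :
    embM o s i o = if i = o then 1 else 0 := by
  rw [embM, dif_neg fun h => h.2 rfl]

theorem embM_row (s : Matrix {i // i ≠ o} {i // i ≠ o} k) (j : n) :
    embM o s o j = if o = j then 1 else 0 := by
  rw [embM, dif_neg fun h => h.1 rfl]

theorem embM_col0 (s : Matrix {i // i ≠ o} {i // i ≠ o} k) (i : n) (hi : i ≠ o) :
    embM o s i o = 0 := by rw [embM_col, if_neg hi]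

theorem blk_embM (s : Matrix {i // i ≠ o} {i // i ≠ o} k) : blk o (embM o s) = s := by
  ext i j
  exact embM_pos o s i j

/-- matrices are determined by the column `o`, the row `o` and the block -/
theorem mat_ext {a b : Matrix n n k} (h1 : ∀ i, a i o = b i o) (h2 : ∀ j, a o j = b o j)
    (h3 : blk o a = blk o b) : a = b := by
  ext i j
  by_cases hi : i = o
  · rw [hi, h2]
  by_cases hj : j = o
  · rw [hj, h1]
  exact congrFun (congrFun h3 ⟨i, hi⟩) ⟨j, hj⟩

theorem embM_one : embM o (1 : Matrix {i // i ≠ o} {i // i ≠ o} k) = 1 := by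
  refine mat_ext o (fun i => ?_) (fun j => ?_) ?_
  · rw [embM_col, Matrix.one_apply]
  · rw [embM_row, Matrix.one_apply]
  · rw [blk_embM, blk_one]

theorem embM_mul (s t : Matrix {i // i ≠ o} {i // i ≠ o} k) :
    embM o (s * t) = embM o s * embM o t := by
  refine mat_ext o (fun i => ?_) (fun j => ?_) ?_
  · rw [col_mul o (embM_col0 o t), embM_col, embM_col, embM_col, if_pos rfl, mul_one]
  · rw [mul_split o, embM_row, embM_row, if_pos rfl, one_mul, embM_row,
      Finset.sum_eq_zero (fun l _ => by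
        rw [embM_row, if_neg (fun h => l.2 h.symm), zero_mul]), add_zero]
  · rw [blk_mul o (embM_col0 o s), blk_embM, blk_embM, blk_embM]

/-- block embedding of special linear groups -/
def emb : SpecialLinearGroup {i // i ≠ o} k →* SpecialLinearGroup n k where
  toFun s := ⟨embM o s.1, by
    rw [det_eq o (embM_col0 o s.1), embM_col, if_pos rfl, one_mul, blk_embM]
    exact s.2⟩
  map_one' := Subtype.ext (embM_one o)
  map_mul' s t := Subtype.ext (embM_mul o s.1 t.1)

theorem emb_coe (s : SpecialLinearGroup {i // i ≠ o} k) : (emb o s).1 = embM o s.1 := rfl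

theorem emb_mem (s : SpecialLinearGroup {i // i ≠ o} k) : emb o s ∈ Par o := embM_col0 o s.1

/-- the block of an element of `Par o` whose corner entry is `1` -/
def bsl (g : SpecialLinearGroup n k) (h1 : g ∈ Par o) (h2 : g.1 o o = 1) :
    SpecialLinearGroup {i // i ≠ o} k := ⟨blk o g.1, by
  have h3 := det_eq o h1
  rw [h2, one_mul, g.2] at h3
  exact h3.symm⟩

theorem bsl_coe (g : SpecialLinearGroup n k) (h1 : g ∈ Par o) (h2 : g.1 o o = 1) :
    (bsl o g h1 h2).1 = blk o g.1 := rfl

theorem blk_mul' {a b : SpecialLinearGroup n k} (ha : a ∈ Par o) :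
    blk o (a * b).1 = blk o a.1 * blk o b.1 := blk_mul o ha

theorem cor_mul {a b : SpecialLinearGroup n k} (hb : b ∈ Par o) :
    (a * b).1 o o = a.1 o o * b.1 o o := col_mul o hb o

/-- the quotient of `g` by the embedded block is in the radical -/
theorem blk_quot (g : SpecialLinearGroup n k) (h1 : g ∈ Par o) (h2 : g.1 o o = 1) :
    blk o ((emb o (bsl o g h1 h2))⁻¹ * g).1 = 1 := by
  rw [← map_inv, blk_mul' o (emb_mem o _), emb_coe, blk_embM, ← bsl_coe o g h1 h2]
  have h3 : ((bsl o g h1 h2)⁻¹ * bsl o g h1 h2).1 = (1 : Matrix {i // i ≠ o} {i // i ≠ o} k) := by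
    rw [inv_mul_cancel]; rfl
  exact h3

section main

variable [Infinite k] [Nontrivial {i // i ≠ o}] {N : Subgroup (SpecialLinearGroup n k)}

theorem mem_of_blk (hR : ∀ g ∈ Par o, (∃ c : k, blk o g.1 = c • 1) → g ∈ N)
    {g : SpecialLinearGroup n k} (h1 : g ∈ Par o) (h2 : g.1 o o = 1) :
    g ∈ N ↔ emb o (bsl o g h1 h2) ∈ N := by
  have h3 : (emb o (bsl o g h1 h2))⁻¹ * g ∈ N := by
    refine hR _ (mul_mem (inv_mem (emb_mem o _)) h1) ⟨1, ?_⟩
    rw [blk_quot, one_smul]
  constructor
  · intro h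
    have h4 := mul_mem h (inv_mem h3)
    rwa [_root_.mul_inv_rev, inv_inv, mul_inv_cancel_left] at h4
  · intro h
    have h4 := mul_mem h h3
    rwa [mul_inv_cancel_left] at h4

/-- **Normal subgroups of the parabolic.** -/
theorem fix_mem (hn : ∀ p ∈ Par o, ∀ g ∈ N, p * g * p⁻¹ ∈ N)
    (hR : ∀ g ∈ Par o, (∃ c : k, blk o g.1 = c • 1) → g ∈ N) {g₀ : SpecialLinearGroup n k}
    (hg₀ : g₀ ∈ N) (hg₁ : g₀ ∈ Par o) (hg₂ : ¬ ∃ c : k, blk o g₀.1 = c • 1)
    {g : SpecialLinearGroup n k} (hg : ∀ i, g.1 i o = if i = o then 1 else 0) : g ∈ N := by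
  have h1 : g ∈ Par o := fun i hi => by rw [hg, if_neg hi]
  have h2 : g.1 o o = 1 := by rw [hg, if_pos rfl]
  rw [mem_of_blk o hR h1 h2]
  haveI hnor : (N.comap (emb o)).Normal := ⟨fun s hs t => by
    rw [Subgroup.mem_comap, map_mul, map_mul, map_inv]
    exact hn _ (emb_mem o t) _ hs⟩
  rcases H899.normal_le_center_or_top (N.comap (emb o)) with h | h
  swap
  · have h3 : bsl o g h1 h2 ∈ N.comap (emb o) := by rw [h]; trivial
    exact h3
  exfalso
  -- the commutators with `g₀`
  have hc1 : ∀ s, g₀ * emb o s * g₀⁻¹ * (emb o s)⁻¹ ∈ Par o := fun s =>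
    mul_mem (mul_mem (mul_mem hg₁ (emb_mem o s)) (inv_mem hg₁)) (inv_mem (emb_mem o s))
  have hgo : g₀.1 o o * (g₀⁻¹).1 o o = 1 := by
    rw [← cor_mul o (inv_mem hg₁), mul_inv_cancel]
    change (1 : Matrix n n k) o o = 1
    rw [Matrix.one_apply, if_pos rfl]
  have hc2 : ∀ s, (g₀ * emb o s * g₀⁻¹ * (emb o s)⁻¹).1 o o = 1 := fun s => by
    rw [cor_mul o (inv_mem (emb_mem o s)), cor_mul o (inv_mem hg₁), cor_mul o (emb_mem o s),
      ← map_inv, emb_coe, emb_coe, embM_col, embM_col, if_pos rfl, mul_one, mul_one, hgo]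
  have hc3 : ∀ s, g₀ * emb o s * g₀⁻¹ * (emb o s)⁻¹ ∈ N := fun s => by
    have h3 : emb o s * g₀⁻¹ * (emb o s)⁻¹ ∈ N := hn _ (emb_mem o s) _ (inv_mem hg₀)
    have h4 := mul_mem hg₀ h3
    rwa [← mul_assoc, ← mul_assoc] at h4
  obtain ⟨D, hD⟩ : ∃ D, D = blk o g₀.1 := ⟨_, rfl⟩
  obtain ⟨D', hD'⟩ : ∃ D', D' = blk o (g₀⁻¹).1 := ⟨_, rfl⟩
  have hDD : D * D' = 1 := by
    rw [hD, hD', ← blk_mul' o hg₁, mul_inv_cancel]
    exact blk_one o
  have hDD' : D' * D = 1 := by
    rw [hD, hD', ← blk_mul' o (inv_mem hg₁), inv_mul_cancel]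
    exact blk_one o
  obtain ⟨t, ht⟩ : ∃ t : SpecialLinearGroup {i // i ≠ o} k → SpecialLinearGroup {i // i ≠ o} k,
      ∀ s, t s = bsl o _ (hc1 s) (hc2 s) := ⟨fun s => bsl o _ (hc1 s) (hc2 s), fun s => rfl⟩
  have htc : ∀ s, t s ∈ Subgroup.center (SpecialLinearGroup {i // i ≠ o} k) := fun s => by
    refine h ?_
    rw [Subgroup.mem_comap, ht, ← mem_of_blk o hR]
    exact hc3 s
  have htv : ∀ s, (t s).1 = D * s.1 * D' * (s⁻¹).1 := fun s => by
    rw [ht, bsl_coe, blk_mul' o (mul_mem (mul_mem hg₁ (emb_mem o s)) (inv_mem hg₁)),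
      blk_mul' o (mul_mem hg₁ (emb_mem o s)), blk_mul' o hg₁, ← map_inv, emb_coe, emb_coe,
      blk_embM, blk_embM, hD, hD']
  have hts : ∀ s, (t s * s).1 = D * s.1 * D' := fun s => by
    change (t s).1 * s.1 = _
    rw [htv, mul_assoc]
    have : (s⁻¹ * s).1 = (1 : Matrix {i // i ≠ o} {i // i ≠ o} k) := by rw [inv_mul_cancel]; rfl
    change D * s.1 * D' * (s⁻¹ * s).1 = _
    rw [this, mul_one]
  have hmul : ∀ s s', t (s * s') = t s * t s' := fun s s' => by
    have e1 : t (s * s') * (s * s') = (t s * s) * (t s' * s') := by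
      apply Subtype.ext
      change (t (s * s') * (s * s')).1 = (t s * s).1 * (t s' * s').1
      rw [hts, hts, hts]
      change D * (s.1 * s'.1) * D' = _
      calc D * (s.1 * s'.1) * D' = D * s.1 * 1 * s'.1 * D' := by
            rw [mul_one]; simp only [mul_assoc]
        _ = D * s.1 * (D' * D) * s'.1 * D' := by rw [hDD']
        _ = D * s.1 * D' * (D * s'.1 * D') := by simp only [mul_assoc]
    have e2 : (t s * s) * (t s' * s') = t s * t s' * (s * s') := by
      have e3 := Subgroup.mem_center_iff.1 (htc s') s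
      rw [mul_assoc, ← mul_assoc s, e3]
      simp only [mul_assoc]
    rw [e2] at e1
    exact mul_right_cancel e1
  have hone : ∀ s, t s = 1 := by
    letI : CommGroup (Subgroup.center (SpecialLinearGroup {i // i ≠ o} k)) :=
      { (inferInstance : Group (Subgroup.center (SpecialLinearGroup {i // i ≠ o} k))) with
        mul_comm := fun a b => Subtype.ext (Subgroup.mem_center_iff.1 b.2 a.1) }
    let f : SpecialLinearGroup {i // i ≠ o} k →*
        Subgroup.center (SpecialLinearGroup {i // i ≠ o} k) :=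
      MonoidHom.mk' (fun s => ⟨t s, htc s⟩) fun s s' => Subtype.ext (hmul s s')
    have hf := H899.hom_eq_one f
    intro s
    exact congrArg Subtype.val (congrArg (fun F => F s) hf)
  have hcomm : ∀ s : SpecialLinearGroup {i // i ≠ o} k, D * s.1 = s.1 * D := fun s => by
    have h3 := hts s
    rw [hone, one_mul] at h3
    calc D * s.1 = D * s.1 * (D' * D) := by rw [hDD', mul_one]
      _ = D * s.1 * D' * D := by simp only [mul_assoc]
      _ = s.1 * D := by rw [← h3]
  apply hg₂
  have key : ∀ i j : {i // i ≠ o}, i ≠ j → Commute (single i j (1 : k)) D := by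
    intro i j hij
    have h3 := hcomm ⟨Matrix.transvection i j 1, Matrix.det_transvection_of_ne i j hij 1⟩
    change D * Matrix.transvection i j 1 = Matrix.transvection i j 1 * D at h3
    rw [Matrix.transvection, mul_add, add_mul, mul_one, one_mul] at h3
    exact (add_left_cancel h3).symm
  obtain ⟨r, hr⟩ := mem_range_scalar_of_commute_single key
  refine ⟨r, ?_⟩
  rw [← hD, ← hr]
  ext i j
  simp [Matrix.scalar_apply, Matrix.diagonal_apply, Matrix.one_apply]

end main

end Vale.Agent.P092.H828.Par
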