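import Mathlib

/-!
P092 (helper828), project B, block B-END, abstract part: a nonzero projection with orthogonal
translates under a regular representation has rank one, and a commuting unitary representation
which permutes the translates up to commutation is monomial in the corresponding basis.
-/

set_option linter.all false

open scoped InnerProductSpace
open Filter Topology ContinuousLinearMap

namespace Vale.Agent.P092.H828

variable {E : Type*} [NormedAddCommGroup E] [InnerProductSpace ℂ E] [CompleteSpace E]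

/-- A unitary representation by bounded operators. -/
structure URep {X : Type*} [Group X] (R : X → (E →L[ℂ] E)) : Prop where
  one : R 1 = 1
  mul : ∀ x y, R (x * y) = R x * R y
  adj : ∀ x, adjoint (R x) = R x⁻¹

/-- A regular representation with a trace vector. -/
structure Reg {X : Type*} [Group X] (R : X → (E →L[ℂ] E)) (ξ : E) : Prop extends URep R where
  norm_one : ‖ξ‖ = 1
  orth : ∀ x, x ≠ 1 → ⟪ξ, R x ξ⟫_ℂ = 0
  total : ∀ η : E, (∀ x, ⟪R x ξ, η⟫_ℂ = 0) → η = 0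

namespace URep

variable {X : Type*} [Group X] {R : X → (E →L[ℂ] E)}

theorem mul_apply (h : URep R) (x y : X) (v : E) : R (x * y) v = R x (R y v) := by
  rw [h.mul]; rfl

theorem one_apply (h : URep R) (v : E) : R 1 v = v := by
  rw [h.one]; rfl

theorem inner_left (h : URep R) (x : X) (u v : E) : ⟪R x u, v⟫_ℂ = ⟪u, R x⁻¹ v⟫_ℂ := by
  rw [← h.adj, adjoint_inner_right]

theorem inner_right (h : URep R) (x : X) (u v : E) : ⟪u, R x v⟫_ℂ = ⟪R x⁻¹ u, v⟫_ℂ := by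
  rw [← h.adj, adjoint_inner_left]

theorem inv_apply (h : URep R) (x : X) (v : E) : R x⁻¹ (R x v) = v := by
  rw [← h.mul_apply, inv_mul_cancel, h.one_apply]

theorem apply_inv (h : URep R) (x : X) (v : E) : R x (R x⁻¹ v) = v := by
  rw [← h.mul_apply, mul_inv_cancel, h.one_apply]

theorem inner_map (h : URep R) (x : X) (u v : E) : ⟪R x u, R x v⟫_ℂ = ⟪u, v⟫_ℂ := by
  rw [h.inner_left, h.inv_apply]

theorem norm_map (h : URep R) (x : X) (v : E) : ‖R x v‖ = ‖v‖ := by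
  have h1 := h.inner_map x v v
  rw [inner_self_eq_norm_sq_to_K, inner_self_eq_norm_sq_to_K] at h1
  have h2 : ‖R x v‖ ^ 2 = ‖v‖ ^ 2 := by exact_mod_cast h1
  exact (pow_left_inj₀ (norm_nonneg _) (norm_nonneg _) two_ne_zero).mp h2

theorem inner_pair (h : URep R) {ζ : E} (hw : ∀ x, x ≠ 1 → ⟪ζ, R x ζ⟫_ℂ = 0) {x y : X}
    (hxy : x ≠ y) : ⟪R x ζ, R y ζ⟫_ℂ = 0 := by
  rw [h.inner_left, ← h.mul_apply]
  exact hw _ fun h1 => hxy (inv_mul_eq_one.mp h1)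

theorem orthonormal (h : URep R) {ζ : E} (hζ : ‖ζ‖ = 1)
    (hw : ∀ x, x ≠ 1 → ⟪ζ, R x ζ⟫_ℂ = 0) : Orthonormal ℂ fun x => R x ζ :=
  ⟨fun x => by rw [h.norm_map, hζ], fun x y hxy => h.inner_pair hw hxy⟩

end URep

section core

variable {X : Type*} [Group X] {R : X → (E →L[ℂ] E)} {ξ : E}

theorem norm_sub_proj {ι : Type*} {e : ι → E} (he : Orthonormal ℂ e) (v : E) (s : Finset ι) :
    ‖v - ∑ i ∈ s, ⟪e i, v⟫_ℂ • e i‖ ^ 2 = ‖v‖ ^ 2 - ∑ i ∈ s, ‖⟪e i, v⟫_ℂ‖ ^ 2 := by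
  obtain ⟨p, hp⟩ : ∃ p, p = ∑ i ∈ s, ⟪e i, v⟫_ℂ • e i := ⟨_, rfl⟩
  obtain ⟨c, hc⟩ : ∃ c : ℝ, c = ∑ i ∈ s, ‖⟪e i, v⟫_ℂ‖ ^ 2 := ⟨_, rfl⟩
  have h1 : ⟪p, p⟫_ℂ = (c : ℂ) := by
    rw [hp, he.inner_sum, hc]
    push_cast
    refine Finset.sum_congr rfl fun i _ => ?_
    rw [Complex.conj_mul']
  have h2 : ⟪v, p⟫_ℂ = (c : ℂ) := by
    rw [hp, inner_sum, hc]
    push_cast
    refine Finset.sum_congr rfl fun i _ => ?_
    rw [inner_smul_right, ← inner_conj_symm v (e i), Complex.mul_conj']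
  have h3 : ‖p‖ ^ 2 = c := by
    rw [← inner_self_eq_norm_sq (𝕜 := ℂ) p, h1]
    simp
  rw [← hp, ← hc, norm_sub_sq (𝕜 := ℂ), h3, h2]
  simp
  ring

/-- A wandering unit vector generates. -/
theorem total_of_wander (h : Reg R ξ) {ζ : E} (hζ : ‖ζ‖ = 1)
    (hw : ∀ x, x ≠ 1 → ⟪ζ, R x ζ⟫_ℂ = 0) (η : E) (hη : ∀ x, ⟪R x ζ, η⟫_ℂ = 0) : η = 0 := by
  have hU : URep R := h.toURep
  have key : ∀ η : E, (∀ x, ⟪R x ζ, η⟫_ℂ = 0) → ⟪ξ, η⟫_ℂ = 0 := by
    intro η hη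
    have hon := hU.orthonormal h.norm_one h.orth
    have he := hU.orthonormal hζ hw
    have hbot : (Submodule.span ℂ (Set.range fun x => R x ξ))ᗮ = ⊥ := by
      rw [Submodule.eq_bot_iff]
      intro v hv
      refine h.total v fun x => ?_
      have hx : R x ξ ∈ Submodule.span ℂ (Set.range fun x => R x ξ) :=
        Submodule.subset_span (Set.mem_range_self x)
      exact Submodule.inner_right_of_mem_orthogonal hx hv
    obtain ⟨b, hb⟩ : ∃ b : HilbertBasis X ℂ E, ⇑b = fun x => R x ξ :=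
      ⟨HilbertBasis.mkOfOrthogonalEqBot hon hbot, HilbertBasis.coe_mkOfOrthogonalEqBot hon hbot⟩
    have h1 := b.hasSum_inner_mul_inner ζ ζ
    have h2 : HasSum (fun x => ‖⟪R x ζ, ξ⟫_ℂ‖ ^ 2) 1 := by
      have h3 : HasSum (fun x => ‖⟪R x ξ, ζ⟫_ℂ‖ ^ 2) 1 := by
        rw [inner_self_eq_norm_sq_to_K, hζ, hb] at h1
        have h4 := Complex.hasSum_re h1
        simp only [Complex.ofReal_one, one_pow, Complex.one_re, RCLike.ofReal_one] at h4
        refine h4.congr_fun ?_ |> id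
        intro x
        rw [← inner_conj_symm ζ (R x ξ), Complex.conj_mul']
        norm_cast
      have h5 := (Equiv.inv X).hasSum_iff.mpr h3
      refine h5.congr_fun ?_ |> id
      intro x
      simp only [Function.comp_apply, Equiv.inv_apply]
      rw [hU.inner_left x⁻¹, inv_inv, ← inner_conj_symm, RCLike.norm_conj]
    have h6 : ∀ s : Finset X, ‖⟪η, ξ⟫_ℂ‖ ^ 2 ≤ ‖η‖ ^ 2 * (1 - ∑ x ∈ s, ‖⟪R x ζ, ξ⟫_ℂ‖ ^ 2) := by
      intro s
      have h7 := norm_sub_proj he ξ s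
      rw [h.norm_one, one_pow] at h7
      rw [← h7, ← mul_pow]
      refine pow_le_pow_left₀ (norm_nonneg _) ?_ 2
      have h8 : ⟪η, ξ - ∑ x ∈ s, ⟪R x ζ, ξ⟫_ℂ • R x ζ⟫_ℂ = ⟪η, ξ⟫_ℂ := by
        rw [inner_sub_right, inner_sum, Finset.sum_eq_zero, sub_zero]
        intro x _
        rw [inner_smul_right, ← inner_conj_symm η, hη x, map_zero, mul_zero]
      rw [← h8]
      exact norm_inner_le_norm _ _
    have h9 : Tendsto (fun s : Finset X => ‖η‖ ^ 2 * (1 - ∑ x ∈ s, ‖⟪R x ζ, ξ⟫_ℂ‖ ^ 2)) atTop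
        (𝓝 (‖η‖ ^ 2 * (1 - 1))) := (h2.const_sub 1).const_mul _
    have h10 := ge_of_tendsto' h9 h6
    rw [sub_self, mul_zero] at h10
    have h11 : ‖⟪η, ξ⟫_ℂ‖ = 0 := by
      have := sq_nonneg ‖⟪η, ξ⟫_ℂ‖
      nlinarith [norm_nonneg (⟪η, ξ⟫_ℂ)]
    rw [← inner_conj_symm, norm_eq_zero.mp h11, map_zero]
  refine h.total η fun x => ?_
  rw [hU.inner_left]
  refine key _ fun y => ?_
  rw [hU.inner_right, inv_inv, ← hU.mul_apply]
  exact hη _

/-- Every wandering unit vector generates: `the dimension is smaller than two`. -/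
def Wan (R : X → (E →L[ℂ] E)) : Prop :=
  ∀ ζ : E, ‖ζ‖ = 1 → (∀ x, x ≠ 1 → ⟪ζ, R x ζ⟫_ℂ = 0) →
    ∀ η : E, (∀ x, ⟪R x ζ, η⟫_ℂ = 0) → η = 0

theorem Reg.wan (h : Reg R ξ) : Wan R := fun _ hζ hw η hη => total_of_wander h hζ hw η hη

/-- A finite Parseval frame of total weight one. -/
structure Frm {ι : Type*} [Fintype ι] (R : X → (E →L[ℂ] E)) (ξ : ι → E) : Prop
    extends URep R where
  frame : ∀ η : E, HasSum (fun p : ι × X => ‖⟪R p.2 (ξ p.1), η⟫_ℂ‖ ^ 2) (‖η‖ ^ 2)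
  dim : ∑ k, ‖ξ k‖ ^ 2 = 1

/-- A wandering unit vector generates (frame version). -/
theorem Frm.wan {ι : Type*} [Fintype ι] {ξ : ι → E} (h : Frm R ξ) : Wan R := by
  intro ζ hζ hw η hη
  have hU : URep R := h.toURep
  have he := hU.orthonormal hζ hw
  -- the coefficients of the frame with respect to the wandering vector
  have h2 : HasSum (fun p : ι × X => ‖⟪R p.2 ζ, ξ p.1⟫_ℂ‖ ^ 2) 1 := by
    have h3 := h.frame ζ
    rw [hζ, one_pow] at h3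
    have h5 := (Equiv.prodCongr (Equiv.refl ι) (Equiv.inv X)).hasSum_iff.mpr h3
    refine h5.congr_fun ?_ |> id
    rintro ⟨k, x⟩
    simp only [Function.comp_apply, Equiv.prodCongr_apply, Prod.map_apply, Equiv.refl_apply,
      Equiv.inv_apply]
    rw [hU.inner_left x⁻¹, inv_inv, ← inner_conj_symm, RCLike.norm_conj]
  have hs : ∀ k, Summable fun x : X => ‖⟪R x ζ, ξ k⟫_ℂ‖ ^ 2 := fun k =>
    (h2.summable.comp_injective (i := fun x : X => ((k, x) : ι × X))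
      fun a b hab => (Prod.mk.inj hab).2)
  have hsum : ∑ k, ∑' x : X, ‖⟪R x ζ, ξ k⟫_ℂ‖ ^ 2 = 1 := by
    have h6 := h2.prod_fiberwise fun k => (hs k).hasSum
    rw [← h6.tsum_eq, tsum_fintype]
  have key : ∀ η : E, (∀ x, ⟪R x ζ, η⟫_ℂ = 0) → ∀ k, ⟪ξ k, η⟫_ℂ = 0 := by
    intro η hη
    have hle : ∀ k, ‖⟪η, ξ k⟫_ℂ‖ ^ 2 ≤
        ‖η‖ ^ 2 * (‖ξ k‖ ^ 2 - ∑' x : X, ‖⟪R x ζ, ξ k⟫_ℂ‖ ^ 2) := by
      intro k
      have h6 : ∀ s : Finset X, ‖⟪η, ξ k⟫_ℂ‖ ^ 2 ≤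
          ‖η‖ ^ 2 * (‖ξ k‖ ^ 2 - ∑ x ∈ s, ‖⟪R x ζ, ξ k⟫_ℂ‖ ^ 2) := by
        intro s
        have h7 := norm_sub_proj he (ξ k) s
        rw [← h7, ← mul_pow]
        refine pow_le_pow_left₀ (norm_nonneg _) ?_ 2
        have h8 : ⟪η, ξ k - ∑ x ∈ s, ⟪R x ζ, ξ k⟫_ℂ • R x ζ⟫_ℂ = ⟪η, ξ k⟫_ℂ := by
          rw [inner_sub_right, inner_sum, Finset.sum_eq_zero, sub_zero]
          intro x _
          rw [inner_smul_right, ← inner_conj_symm η, hη x, map_zero, mul_zero]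
        rw [← h8]
        exact norm_inner_le_norm _ _
      exact ge_of_tendsto' (((hs k).hasSum.const_sub _).const_mul _) h6
    have hzero : ∑ k, ‖⟪η, ξ k⟫_ℂ‖ ^ 2 ≤ 0 := by
      refine (Finset.sum_le_sum fun k _ => hle k).trans ?_
      rw [← Finset.mul_sum, Finset.sum_sub_distrib, h.dim, hsum, sub_self, mul_zero]
    intro k
    have h9 : ‖⟪η, ξ k⟫_ℂ‖ ^ 2 ≤ 0 :=
      (Finset.single_le_sum (f := fun k => ‖⟪η, ξ k⟫_ℂ‖ ^ 2) (fun i _ => by positivity)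
        (Finset.mem_univ k)).trans hzero
    have h11 : ‖⟪η, ξ k⟫_ℂ‖ = 0 := by
      have := sq_nonneg ‖⟪η, ξ k⟫_ℂ‖
      nlinarith [norm_nonneg (⟪η, ξ k⟫_ℂ)]
    rw [← inner_conj_symm, norm_eq_zero.mp h11, map_zero]
  have h10 : ∀ p : ι × X, ‖⟪R p.2 (ξ p.1), η⟫_ℂ‖ ^ 2 = 0 := by
    intro p
    have h1 : ⟪R p.2 (ξ p.1), η⟫_ℂ = 0 := by
      rw [hU.inner_left]
      refine key _ (fun y => ?_) _
      rw [hU.inner_right, inv_inv, ← hU.mul_apply]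
      exact hη _
    rw [h1, norm_zero, zero_pow two_ne_zero]
  have h11 := (h.frame η).unique ((hasSum_zero).congr_fun (fun p => h10 p) |> id)
  exact norm_eq_zero.mp (pow_eq_zero_iff two_ne_zero |>.mp h11)

/-- A nonzero projection with orthogonal translates is of rank one. -/
theorem rank_one' (hU : URep R) (hW : Wan R) {F : E →L[ℂ] E} (hF : F * F = F)
    (hFa : adjoint F = F)
    (hFo : ∀ x, x ≠ 1 → F * (R x * F * R x⁻¹) = 0) {ζ : E} (hζ : ‖ζ‖ = 1) (hFζ : F ζ = ζ) :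
    (∀ x, x ≠ 1 → ⟪ζ, R x ζ⟫_ℂ = 0) ∧ ∀ v, F v = ⟪ζ, v⟫_ℂ • ζ := by
  have hFF : ∀ v, F (F v) = F v := fun v => congrArg (fun T : E →L[ℂ] E => T v) hF
  have hFi : ∀ u v, ⟪F u, v⟫_ℂ = ⟪u, F v⟫_ℂ := fun u v => by
    rw [← adjoint_inner_right, hFa]
  have h0 : ∀ x, x ≠ 1 → ∀ v, F (R x (F v)) = 0 := by
    intro x hx v
    have h1 := congrArg (fun T : E →L[ℂ] E => T (R x v)) (hFo x hx)
    have h2 : F (R x (F (R x⁻¹ (R x v)))) = 0 := h1
    rwa [hU.inv_apply] at h2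
  have hw : ∀ x, x ≠ 1 → ⟪ζ, R x ζ⟫_ℂ = 0 := by
    intro x hx
    have h1 : ⟪F ζ, R x (F ζ)⟫_ℂ = 0 := by rw [hFi, h0 x hx, inner_zero_right]
    rwa [hFζ] at h1
  refine ⟨hw, fun v => ?_⟩
  rw [← sub_eq_zero]
  refine hW ζ hζ hw _ fun x => ?_
  by_cases hx : x = 1
  · rw [hx, hU.one_apply, inner_sub_right, inner_smul_right, inner_self_eq_norm_sq_to_K, hζ,
      ← hFi, hFζ]
    simp
  · have h1 : F (F v - ⟪ζ, v⟫_ℂ • ζ) = F v - ⟪ζ, v⟫_ℂ • ζ := by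
      rw [map_sub, map_smul, hFF, hFζ]
    rw [← h1, ← hFζ, ← hFi, h0 x hx, inner_zero_left]

/-- Existence of a unit vector in the range of a nonzero projection. -/
theorem exists_unit {F : E →L[ℂ] E} (hF : F * F = F) (h0 : F ≠ 0) : ∃ ζ : E, ‖ζ‖ = 1 ∧ F ζ = ζ := by
  obtain ⟨v, hv⟩ : ∃ v, F v ≠ 0 := by
    by_contra hn
    push Not at hn
    exact h0 (ContinuousLinearMap.ext fun v => by rw [hn]; rfl)
  have hFF : F (F v) = F v := congrArg (fun T : E →L[ℂ] E => T v) hF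
  have hn : ‖F v‖ ≠ 0 := norm_ne_zero_iff.mpr hv
  refine ⟨((‖F v‖ : ℝ) : ℂ)⁻¹ • F v, ?_, ?_⟩
  · rw [norm_smul, norm_inv, Complex.norm_real, norm_norm, inv_mul_cancel₀ hn]
  · rw [map_smul, hFF]

/-- **B-END, core.** -/
theorem end_core' {Γ : Type*} [Group Γ] (hU : URep R) (hW : Wan R) {V : Γ → (E →L[ℂ] E)}
    (hV : URep V)
    (hVR : ∀ g x, V g * R x = R x * V g) {F : E →L[ℂ] E} (hF : F * F = F) (hFa : adjoint F = F)
    (hF0 : F ≠ 0) (hFo : ∀ x, x ≠ 1 → F * (R x * F * R x⁻¹) = 0)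
    (hFc : ∀ g x, (V g * F * V g⁻¹) * (R x * F * R x⁻¹) = (R x * F * R x⁻¹) * (V g * F * V g⁻¹)) :
    ∃ (w : E) (δ : Γ →* X) (χ : Γ →* ℂ), Reg R w ∧ F w = w ∧
      (∀ g, ‖χ g‖ = 1) ∧ ∀ g, V g w = χ g • R (δ g)⁻¹ w := by
  classical
  obtain ⟨w, hw1, hFw⟩ := exists_unit hF hF0
  obtain ⟨ho, hr⟩ := rank_one' hU hW hF hFa hFo hw1 hFw
  have htot := hW w hw1 ho
  have hVRa : ∀ g x v, V g (R x v) = R x (V g v) := fun g x v =>
    congrArg (fun T : E →L[ℂ] E => T v) (hVR g x)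
  -- the permutation of the basis
  have hex : ∀ g, ∃ x, ∃ c : ℂ, ‖c‖ = 1 ∧ V g w = c • R x w := by
    intro g
    obtain ⟨x, hx⟩ : ∃ x, ⟪R x w, V g w⟫_ℂ ≠ 0 := by
      by_contra hn
      push Not at hn
      have h1 := htot _ hn
      have h2 := hV.norm_map g w
      rw [h1, norm_zero, hw1] at h2
      exact zero_ne_one h2
    have h1 := congrArg (fun T : E →L[ℂ] E => T (V g w)) (hFc g x)
    have h2 : V g (F (V g⁻¹ (R x (F (R x⁻¹ (V g w)))))) = R x (F (R x⁻¹ (V g (F (V g⁻¹ (V g w)))))) :=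
      h1
    rw [hV.inv_apply, hFw, hr (R x⁻¹ (V g w))] at h2
    simp only [map_smul] at h2
    rw [hr (V g⁻¹ (R x w))] at h2
    simp only [map_smul] at h2
    have h3 : ⟪w, R x⁻¹ (V g w)⟫_ℂ = ⟪R x w, V g w⟫_ℂ := by rw [hU.inner_left]
    rw [h3] at h2
    have h4 := smul_right_injective E hx h2
    have h5 : ⟪w, V g⁻¹ (R x w)⟫_ℂ = ⟪V g w, R x w⟫_ℂ := by rw [hV.inner_left]
    rw [h5] at h4
    have h6 : ‖⟪V g w, R x w⟫_ℂ‖ = 1 := by
      have h7 := congrArg norm h4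
      rw [norm_smul, hV.norm_map, hU.norm_map, hw1, mul_one] at h7
      exact h7
    obtain ⟨a, ha⟩ : ∃ a, a = ⟪V g w, R x w⟫_ℂ := ⟨_, rfl⟩
    rw [← ha] at h4 h6
    have h8 : a ≠ 0 := by
      rw [← norm_ne_zero_iff, h6]
      exact one_ne_zero
    refine ⟨x, a⁻¹, by rw [norm_inv, h6, inv_one], ?_⟩
    rw [← h4, smul_smul, inv_mul_cancel₀ h8, one_smul]
  choose f c hc hf using hex
  have huniq : ∀ {x y : X} {a b : ℂ}, ‖a‖ = 1 → a • R x w = b • R y w → x = y ∧ a = b := by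
    intro x y a b ha hab
    have hxy : x = y := by
      by_contra hne
      have h1 := congrArg (fun v => ⟪R x w, v⟫_ℂ) hab
      simp only [inner_smul_right] at h1
      rw [hU.inner_pair ho hne, hU.inner_map, inner_self_eq_norm_sq_to_K, hw1, mul_zero] at h1
      simp only [RCLike.ofReal_one, one_pow, mul_one] at h1
      rw [h1, norm_zero] at ha
      exact zero_ne_one ha
    refine ⟨hxy, ?_⟩
    rw [hxy] at hab
    have h1 := congrArg (fun v => ⟪R y w, v⟫_ℂ) hab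
    simp only [inner_smul_right] at h1
    rw [hU.inner_map, inner_self_eq_norm_sq_to_K, hw1] at h1
    simpa using h1
  have hmul : ∀ g k, f (g * k) = f k * f g ∧ c (g * k) = c g * c k := by
    intro g k
    have h1 : c (g * k) • R (f (g * k)) w = (c g * c k) • R (f k * f g) w := by
      rw [← hf, hV.mul_apply, hf k, map_smul, hVRa, hf g, map_smul, smul_smul, hU.mul_apply,
        mul_comm (c g)]
    exact huniq (hc _) h1
  have hone : f 1 = 1 ∧ c 1 = 1 := by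
    have h1 : c 1 • R (f 1) w = (1 : ℂ) • R 1 w := by
      rw [← hf, hV.one_apply, hU.one_apply, one_smul]
    exact huniq (hc _) h1
  refine ⟨w, ⟨⟨fun g => (f g)⁻¹, by simp only [hone.1, inv_one]⟩, fun g k => by
      simp only [(hmul g k).1, mul_inv_rev]⟩, ⟨⟨c, hone.2⟩, fun g k => (hmul g k).2⟩,
    { toURep := hU, norm_one := hw1, orth := ho, total := htot }, hFw, hc, fun g => ?_⟩
  simp only [MonoidHom.coe_mk, OneHom.coe_mk, inv_inv]
  exact hf g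

theorem end_core {Γ : Type*} [Group Γ] (h : Reg R ξ) {V : Γ → (E →L[ℂ] E)} (hV : URep V)
    (hVR : ∀ g x, V g * R x = R x * V g) {F : E →L[ℂ] E} (hF : F * F = F) (hFa : adjoint F = F)
    (hF0 : F ≠ 0) (hFo : ∀ x, x ≠ 1 → F * (R x * F * R x⁻¹) = 0)
    (hFc : ∀ g x, (V g * F * V g⁻¹) * (R x * F * R x⁻¹) = (R x * F * R x⁻¹) * (V g * F * V g⁻¹)) :
    ∃ (w : E) (δ : Γ →* X) (χ : Γ →* ℂ), Reg R w ∧ F w = w ∧
      (∀ g, ‖χ g‖ = 1) ∧ ∀ g, V g w = χ g • R (δ g)⁻¹ w :=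
  end_core' h.toURep h.wan hV hVR hF hFa hF0 hFo hFc

end core

end Vale.Agent.P092.H828
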