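import Vale.Agent.P092.H473.Grp2
import Vale.Agent.P092.H899.Simple
import Vale.Agent.P092.RC.Cc

/-!
P092 (helper828), team C, block [C-X], group theory: an injective continuous endomorphism of
`PGL_m(k)` is open (index count along the chain of congruence subgroups), and a subgroup with power
bounded elements which is normalised by its image is trivial.
-/

set_option linter.all false

open Topology Filter Set

namespace Vale.Agent.P092.H828.CX

open Vale.Agent.P092.H473.Res Vale.Agent.P092.H175.T1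

section openrange

variable {G : Type} [Group G] {p q : ℕ} {K : ℕ → Subgroup G}

variable [TopologicalSpace G]

theorem q_ne (h : GrpH p q K) : q ≠ 0 := by
  rw [← h.idx 0]; exact h.chain.fin 0

/-- the power map is injective on the graded pieces -/
theorem pow_inj (h : GrpH p q K) {i : ℕ} {z : G} (hz : z ∈ K i) (hz' : z ^ p ∈ K (i + 2)) :
    z ∈ K (i + 1) := by
  classical
  have hc := h.chain
  haveI hfin : Finite ((K i) ⧸ (K (i + 1)).subgroupOf (K i)) := by
    haveI : ((K (i + 1)).subgroupOf (K i)).FiniteIndex := ⟨hc.fin i⟩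
    exact Subgroup.finite_quotient_of_finiteIndex
  have hwd : ∀ x y : K i, (QuotientGroup.leftRel ((K (i + 1)).subgroupOf (K i))) x y →
      (QuotientGroup.leftRel ((K (i + 2)).subgroupOf (K (i + 1))))
        (⟨(x : G) ^ p, hc.pow i x x.2⟩ : K (i + 1)) ⟨(y : G) ^ p, hc.pow i y y.2⟩ := by
    intro x y hxy
    rw [QuotientGroup.leftRel_apply, Subgroup.mem_subgroupOf] at hxy ⊢
    have hx0 : (x : G) ∈ K 0 := hc.mono (Nat.zero_le i) x.2
    have hr : (x : G)⁻¹ * (y : G) ∈ K (i + 1) := hxy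
    obtain ⟨n, hn, h1⟩ := mul_pow_mem hc (by omega : i + 2 ≤ (i + 1) + 2) hx0 hr p
    rw [mul_inv_cancel_left] at h1
    change ((x : G) ^ p)⁻¹ * (y : G) ^ p ∈ K (i + 2)
    rw [h1]
    have h2 : ((x : G) ^ p)⁻¹ * ((x : G) ^ p * ((x : G)⁻¹ * (y : G)) ^ p * n) =
        ((x : G)⁻¹ * (y : G)) ^ p * n := by group
    rw [h2]
    exact mul_mem (hc.pow _ _ hr) hn
  let F : (K i) ⧸ (K (i + 1)).subgroupOf (K i) →
      (K (i + 1)) ⧸ (K (i + 2)).subgroupOf (K (i + 1)) :=
    Quotient.map' (fun x : K i => (⟨(x : G) ^ p, hc.pow i x x.2⟩ : K (i + 1))) hwd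
  have hF : Function.Surjective F := by
    intro w
    obtain ⟨l, rfl⟩ := QuotientGroup.mk_surjective w
    obtain ⟨k, hk, r, hr, h1⟩ := hc.root i l l.2
    refine ⟨QuotientGroup.mk (⟨k, hk⟩ : K i), ?_⟩
    change (QuotientGroup.mk (⟨k ^ p, hc.pow i k hk⟩ : K (i + 1)) : (K (i + 1)) ⧸ _) = _
    rw [QuotientGroup.eq, Subgroup.mem_subgroupOf]
    change (k ^ p)⁻¹ * (l : G) ∈ K (i + 2)
    rw [h1, inv_mul_cancel_left]
    exact hr
  have hcard : Nat.card ((K i) ⧸ (K (i + 1)).subgroupOf (K i)) ≤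
      Nat.card ((K (i + 1)) ⧸ (K (i + 2)).subgroupOf (K (i + 1))) :=
    ((h.idx i).trans (h.idx (i + 1)).symm).le
  have hFi := (hF.bijective_of_nat_card_le hcard).1
  have h3 : F (QuotientGroup.mk (⟨z, hz⟩ : K i)) = F (QuotientGroup.mk (1 : K i)) := by
    change (QuotientGroup.mk (⟨z ^ p, hc.pow i z hz⟩ : K (i + 1)) : (K (i + 1)) ⧸ _) =
      QuotientGroup.mk (⟨((1 : K i) : G) ^ p, hc.pow i _ (1 : K i).2⟩ : K (i + 1))
    rw [QuotientGroup.eq, Subgroup.mem_subgroupOf]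
    change (z ^ p)⁻¹ * (1 : G) ^ p ∈ K (i + 2)
    rw [one_pow, mul_one]
    exact inv_mem hz'
  have h4 := hFi h3
  rw [QuotientGroup.eq, Subgroup.mem_subgroupOf] at h4
  have h5 : z⁻¹ * 1 ∈ K (i + 1) := h4
  rw [mul_one] at h5
  exact inv_mem_iff.1 h5

theorem mem_of_pow (h : GrpH p q K) {w : G} (hw : w ∈ K 0) : ∀ a : ℕ, w ^ p ∈ K (a + 1) → w ∈ K a
  | 0, _ => hw
  | a + 1, h1 => pow_inj h (mem_of_pow h hw a (h.chain.mono (by omega) h1)) h1

theorem mem_of_iter (h : GrpH p q K) {w : G} (hw : w ∈ K 0) (A : ℕ) :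
    ∀ j : ℕ, w ^ (p ^ j) ∈ K (A + j) → w ∈ K A
  | 0, h1 => by simpa using h1
  | j + 1, h1 => by
    refine mem_of_iter h hw A j ?_
    refine mem_of_pow h ((K 0).pow_mem hw _) (A + j) ?_
    rw [← pow_mul, ← pow_succ]
    exact h1

theorem iter_mem (h : GrpH p q K) {w : G} {a : ℕ} (hw : w ∈ K a) :
    ∀ j : ℕ, w ^ (p ^ j) ∈ K (a + j)
  | 0 => by simpa using hw
  | j + 1 => by
    rw [pow_succ, pow_mul]
    exact h.chain.pow _ _ (iter_mem h hw j)

variable [IsTopologicalGroup G]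

theorem iter_root (h : GrpH p q K) (n : ℕ) :
    ∀ (j : ℕ) (x : G), x ∈ K (n + j) → ∃ y ∈ K n, y ^ (p ^ j) = x
  | 0, x, hx => ⟨x, hx, by simp⟩
  | j + 1, x, hx => by
    obtain ⟨y', hy', h1⟩ := exact_root h.chain (h.cpt 0) h.opn h.inter (n + j) x hx
    obtain ⟨y, hy, h2⟩ := iter_root h n j y' hy'
    exact ⟨y, hy, by rw [pow_succ, pow_mul, h2, h1]⟩

variable [T2Space G]

theorem idx_pow (h : GrpH p q K) (n : ℕ) : ∀ j : ℕ, (K (n + j)).relIndex (K n) = q ^ j
  | 0 => by rw [Nat.add_zero, Subgroup.relIndex_self, pow_zero]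
  | j + 1 => by
    rw [← Subgroup.relIndex_mul_relIndex (K (n + (j + 1))) (K (n + j)) (K n)
      (h.chain.mono (by omega)) (h.chain.mono (by omega)), idx_pow h n j]
    rw [show n + (j + 1) = (n + j) + 1 from rfl, h.idx, pow_succ, mul_comm]

/-- **An injective continuous endomorphism is open.** -/
theorem open_range (h : GrpH p q K) (θ : G →* G) (hc : Continuous θ)
    (hi : Function.Injective θ) : ∃ M, K M ≤ θ.range := by
  classical
  obtain ⟨N₀, hN₀⟩ := h.bas (θ ⁻¹' (K 0 : Set G))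
    (((h.opn 0).preimage hc).mem_nhds (by
      change θ 1 ∈ K 0
      rw [map_one]; exact one_mem _))
  -- depth
  have hS : IsCompact ((K N₀ : Set G) \ (K (N₀ + 1) : Set G)) := (h.cpt N₀).diff (h.opn _)
  have hS1 : (θ '' ((K N₀ : Set G) \ (K (N₀ + 1) : Set G)))ᶜ ∈ 𝓝 (1 : G) := by
    refine (hS.image hc).isClosed.isOpen_compl.mem_nhds ?_
    rintro ⟨x, ⟨hx1, hx2⟩, hx⟩
    have : x = 1 := hi (by rw [hx, map_one])
    exact hx2 (by rw [this]; exact one_mem _)
  obtain ⟨A, hA⟩ := h.bas _ hS1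
  have hdep : ∀ j : ℕ, ∀ x ∈ K N₀, θ x ∈ K (A + j) → x ∈ K (N₀ + j + 1) := by
    intro j
    induction j with
    | zero =>
      intro x hx h1
      by_contra h2
      exact hA h1 ⟨x, ⟨hx, h2⟩, rfl⟩
    | succ j ih =>
      intro x hx h1
      have h2 : x ∈ K (N₀ + (j + 1)) := ih x hx (h.chain.mono (by omega) h1)
      obtain ⟨y, hy, h3⟩ := iter_root h N₀ (j + 1) x h2
      have h4 : θ y ∈ K A := by
        refine mem_of_iter h (hN₀ hy) A (j + 1) ?_
        rw [← map_pow, h3]; exact h1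
      have h5 : y ∈ K (N₀ + 1) := by
        by_contra h6
        exact hA h4 ⟨y, ⟨hy, h6⟩, rfl⟩
      have h6 := iter_mem h h5 (j + 1)
      rw [h3] at h6
      rwa [show N₀ + 1 + (j + 1) = N₀ + (j + 1) + 1 by omega] at h6
  -- the compact subgroup `T`
  obtain ⟨T, hT⟩ : ∃ T : Subgroup G, T = (K N₀).map θ := ⟨_, rfl⟩
  have hT0 : T ≤ K 0 := by
    rw [hT]
    rintro _ ⟨x, hx, rfl⟩
    exact hN₀ hx
  have hTc : IsClosed (T : Set G) := by
    rw [hT, Subgroup.coe_map]
    exact ((h.cpt N₀).image hc).isClosed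
  have hq0 := q_ne h
  have hqpos : 0 < q := Nat.pos_of_ne_zero hq0
  have hk0 : ∀ M, (K M).relIndex (K 0) = q ^ M := fun M => by
    have := idx_pow h 0 M
    rwa [Nat.zero_add] at this
  have hTM : ∀ j, q ^ (j + 1) ≤ (K (A + j)).relIndex T := by
    intro j
    have h1 : (K (A + j)).relIndex T = ((K (A + j)).comap θ ⊓ K N₀).relIndex (K N₀) := by
      rw [hT, Subgroup.inf_relIndex_right, Subgroup.relIndex_comap]
    have h2 : (K (A + j)).comap θ ⊓ K N₀ ≤ K (N₀ + (j + 1)) := by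
      rintro x ⟨hx1, hx2⟩
      exact hdep j x hx2 hx1
    have h3 : (K (A + j)).relIndex T ≠ 0 := by
      have h4 : (K (A + j)).relIndex (K 0) ≠ 0 := by rw [hk0]; exact pow_ne_zero _ hq0
      exact fun h0 => h4 (Subgroup.relIndex_eq_zero_of_le_right hT0 h0)
    rw [h1] at h3 ⊢
    rw [← idx_pow h N₀ (j + 1)]
    exact Subgroup.relIndex_le_of_le_left h2 h3
  -- inside `K 0`
  obtain ⟨T', hT'⟩ : ∃ T' : Subgroup (K 0), T' = T.subgroupOf (K 0) := ⟨_, rfl⟩
  obtain ⟨K', hK'⟩ : ∃ K' : ℕ → Subgroup (K 0), ∀ M, K' M = (K M).subgroupOf (K 0) :=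
    ⟨fun M => (K M).subgroupOf (K 0), fun M => rfl⟩
  haveI hnor : ∀ M, (K' M).Normal := fun M => ⟨fun l hl k => by
    rw [hK', Subgroup.mem_subgroupOf] at hl ⊢
    have h1 := h.chain.conj_mem (inv_mem k.2) hl
    rw [inv_inv] at h1
    exact h1⟩
  have hmono : ∀ {M M'}, M ≤ M' → K' M' ≤ K' M := fun hMM x hx => by
    rw [hK', Subgroup.mem_subgroupOf] at hx ⊢
    exact h.chain.mono hMM hx
  have hidx : ∀ M, (K' M).index = q ^ M := fun M => by rw [hK']; exact hk0 M
  have hrel : ∀ M, (K' M).relIndex T' = (K M).relIndex T := fun M => by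
    rw [hK', hT']
    exact Subgroup.relIndex_subgroupOf hT0
  have hsup : ∀ M, (K' M).relIndex T' * (T' ⊔ K' M).index = q ^ M := fun M => by
    rw [← hidx, ← Subgroup.relIndex_mul_index (le_sup_right : K' M ≤ T' ⊔ K' M),
      Subgroup.relIndex_sup_right]
  have hbd : ∀ j, (T' ⊔ K' (A + j)).index ≤ q ^ A := by
    intro j
    have h2 := hTM j
    rw [← hrel] at h2
    have h3 : q ^ (j + 1) * (T' ⊔ K' (A + j)).index ≤ q ^ (A + j) := by
      rw [← hsup (A + j)]
      exact Nat.mul_le_mul_right _ h2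
    have h4 : q ^ j * (T' ⊔ K' (A + j)).index ≤ q ^ j * q ^ A := by
      calc q ^ j * (T' ⊔ K' (A + j)).index ≤ q ^ (j + 1) * (T' ⊔ K' (A + j)).index :=
            Nat.mul_le_mul_right _ (Nat.pow_le_pow_right hqpos (Nat.le_succ j))
        _ ≤ q ^ (A + j) := h3
        _ = q ^ j * q ^ A := by rw [pow_add, mul_comm]
    exact Nat.le_of_mul_le_mul_left h4 (pow_pos hqpos j)
  have hne : ∀ M, (T' ⊔ K' M).index ≠ 0 := fun M h0 => by
    have h1 := hsup M
    rw [h0, mul_zero] at h1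
    exact pow_ne_zero _ hq0 h1.symm
  obtain ⟨j₀, hj₀⟩ : ∃ j₀, ∀ j, (T' ⊔ K' (A + j)).index ≤ (T' ⊔ K' (A + j₀)).index := by
    have hfin : (Set.range fun j => (T' ⊔ K' (A + j)).index).Finite :=
      (Set.finite_Iic (q ^ A)).subset (by rintro _ ⟨j, rfl⟩; exact hbd j)
    obtain ⟨m, ⟨j₀, rfl⟩, hm⟩ := Set.exists_max_image _ (fun x : ℕ => x) hfin ⟨_, 0, rfl⟩
    exact ⟨j₀, fun j => hm _ ⟨j, rfl⟩⟩
  have hle : ∀ j, j₀ ≤ j → K' (A + j₀) ≤ T' ⊔ K' (A + j) := by
    intro j hj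
    have h1 : T' ⊔ K' (A + j) ≤ T' ⊔ K' (A + j₀) := sup_le_sup_left (hmono (by omega)) _
    have h2 := Subgroup.relIndex_mul_index h1
    have h3 : (T' ⊔ K' (A + j)).relIndex (T' ⊔ K' (A + j₀)) = 1 := by
      have h4 := hj₀ j
      rw [← h2] at h4
      have h5 : (T' ⊔ K' (A + j)).relIndex (T' ⊔ K' (A + j₀)) ≠ 0 := fun h0 => by
        rw [h0, zero_mul] at h2
        exact hne _ h2.symm
      have h6 : 0 < (T' ⊔ K' (A + j₀)).index := Nat.pos_of_ne_zero (hne _)
      have h7 : (T' ⊔ K' (A + j)).relIndex (T' ⊔ K' (A + j₀)) ≤ 1 :=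
        Nat.le_of_mul_le_mul_right (by rwa [one_mul]) h6
      omega
    exact le_sup_right.trans (Subgroup.relIndex_eq_one.1 h3)
  refine ⟨A + j₀, fun x hx => ?_⟩
  have hxT : x ∈ T := by
    by_contra hxT
    have h1 : (fun k => x * k⁻¹) ⁻¹' (T : Set G)ᶜ ∈ 𝓝 (1 : G) := by
      refine (hTc.isOpen_compl.preimage (by fun_prop)).mem_nhds ?_
      change x * 1⁻¹ ∉ T
      rwa [inv_one, mul_one]
    obtain ⟨M, hM⟩ := h.bas _ h1
    have hx0 : x ∈ K 0 := h.chain.mono (Nat.zero_le _) hx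
    have h2 : (⟨x, hx0⟩ : K 0) ∈ T' ⊔ K' (A + (j₀ + M)) := by
      refine hle (j₀ + M) (by omega) ?_
      rw [hK', Subgroup.mem_subgroupOf]
      exact hx
    rw [Subgroup.mem_sup_of_normal_right] at h2
    obtain ⟨t, ht, k, hk, htk⟩ := h2
    rw [hT', Subgroup.mem_subgroupOf] at ht
    rw [hK', Subgroup.mem_subgroupOf] at hk
    have h3 : (k : G) ∈ K M := h.chain.mono (by omega) hk
    refine hM h3 ?_
    change x * (k : G)⁻¹ ∈ T
    have h4 : (t : G) * (k : G) = x := congrArg Subtype.val htk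
    rw [← h4, mul_inv_cancel_right]
    exact ht
  rw [hT] at hxT
  obtain ⟨y, -, hy⟩ := hxT
  exact ⟨y, hy⟩

/-- An element with bounded powers does not contract a nontrivial element. -/
theorem contr {g u : G} {C : Set G} (hC : IsCompact C) (hg : ∀ n : ℕ, g ^ n ∈ C)
    (ht : Tendsto (fun n : ℕ => g ^ n * u * (g ^ n)⁻¹) atTop (𝓝 1)) : u = 1 := by
  by_contra hu
  have h1 : ∀ᶠ x in 𝓝 (1 : G), ∀ c ∈ C, c⁻¹ * x * c ≠ u := by
    refine hC.eventually_forall_of_forall_eventually fun c hc => ?_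
    have h2 : Continuous fun z : G × G => z.2⁻¹ * z.1 * z.2 := by fun_prop
    have h3 : Tendsto (fun z : G × G => z.2⁻¹ * z.1 * z.2) (𝓝 (1, c)) (𝓝 (c⁻¹ * 1 * c)) :=
      h2.tendsto _
    rw [mul_one, inv_mul_cancel] at h3
    exact h3.eventually (isOpen_ne.mem_nhds (Ne.symm hu))
  obtain ⟨n, hn⟩ := (ht.eventually h1).exists
  refine hn _ (hg n) ?_
  group

end openrange

section normal

open Matrix

variable {k : Type} [NontriviallyNormedField k] {m : ℕ}

/-- `SL_m(k) → PGL_m(k)` -/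
def fSL (k : Type) [NontriviallyNormedField k] (m : ℕ) :
    SpecialLinearGroup (Fin m) k →* RC.PG k m :=
  (QuotientGroup.mk' _).comp Matrix.SpecialLinearGroup.toGL

theorem diag_conj {n : Type*} [Fintype n] [DecidableEq n] {F : Type*} [Field F] {i j : n}
    (hij : i ≠ j) (x : F) (hx : x ≠ 0) (c : F) :
    SpecialLinearGroup.diag2n hij x hx * SpecialLinearGroup.transvection hij c *
      (SpecialLinearGroup.diag2n hij x hx)⁻¹ = SpecialLinearGroup.transvection hij (x ^ 2 * c) := by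
  have h1 := H899.comm_diag2n hij x hx c
  rw [commutatorElement_def, mul_inv_eq_iff_eq_mul] at h1
  rw [h1]
  apply Subtype.ext
  change Matrix.transvection i j ((x ^ 2 - 1) * c) * Matrix.transvection i j c =
    Matrix.transvection i j (x ^ 2 * c)
  rw [Matrix.transvection_mul_transvection_same i j hij]
  congr 1
  ring

theorem diag_pow_conj {n : Type*} [Fintype n] [DecidableEq n] {F : Type*} [Field F] {i j : n}
    (hij : i ≠ j) (x : F) (hx : x ≠ 0) (c : F) (l : ℕ) :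
    SpecialLinearGroup.diag2n hij x hx ^ l * SpecialLinearGroup.transvection hij c *
      (SpecialLinearGroup.diag2n hij x hx ^ l)⁻¹ =
      SpecialLinearGroup.transvection hij ((x ^ 2) ^ l * c) := by
  induction l with
  | zero => simp
  | succ l ih =>
    have h1 : ∀ a b : SpecialLinearGroup n F, a ^ (l + 1) * b * (a ^ (l + 1))⁻¹ =
        a * (a ^ l * b * (a ^ l)⁻¹) * a⁻¹ := fun a b => by
      rw [pow_succ']
      group
    rw [h1, ih, diag_conj, pow_succ']
    congr 1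
    ring

/-- A nontrivial normal subgroup of `PGL_m(k)` contains a contracting element. -/
theorem normal_hyp [IsUltrametricDist k] [ProperSpace k] [CharZero k] (hm : 2 ≤ m)
    (M : Subgroup (RC.PG k m)) (hM : M.Normal) (hne : M ≠ ⊥) : ∃ g ∈ M, ∃ u : RC.PG k m, u ≠ 1 ∧
      Tendsto (fun n : ℕ => g ^ n * u * (g ^ n)⁻¹) atTop (𝓝 1) := by
  classical
  obtain ⟨p, q, K, -, -, -, h⟩ := grpH_pgl k (Fin m)
  haveI : Nontrivial (Fin m) := ⟨⟨⟨0, by omega⟩, ⟨1, by omega⟩, by
    intro h; simpa using congrArg Fin.val h⟩⟩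
  haveI : Infinite k := NontriviallyNormedField.infinite k
  obtain ⟨x, hx, hx1⟩ : ∃ x ∈ M, x ≠ 1 := by
    by_contra hcon
    push Not at hcon
    exact hne ((Subgroup.eq_bot_iff_forall _).2 hcon)
  obtain ⟨y, hy⟩ : ∃ y, y * x ≠ x * y := by
    by_contra hcon
    push Not at hcon
    exact hx1 (h.cent 0 x fun y _ => hcon y)
  obtain ⟨X, hX⟩ := QuotientGroup.mk_surjective x
  obtain ⟨Y, hY⟩ := QuotientGroup.mk_surjective y
  have hdet : (X * Y * X⁻¹ * Y⁻¹).val.det = 1 := by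
    have h1 : Matrix.GeneralLinearGroup.det (X * Y * X⁻¹ * Y⁻¹) = 1 := by
      rw [map_mul, map_mul, map_mul, map_inv, map_inv]
      rw [mul_comm (Matrix.GeneralLinearGroup.det X), mul_assoc, mul_assoc, mul_inv_cancel_left,
        mul_inv_cancel]
    exact congrArg Units.val h1
  obtain ⟨s, hs⟩ : ∃ s : SpecialLinearGroup (Fin m) k, s = ⟨(X * Y * X⁻¹ * Y⁻¹).val, hdet⟩ :=
    ⟨_, rfl⟩
  have hfs : fSL k m s = x * y * x⁻¹ * y⁻¹ := by
    rw [← hX, ← hY]
    change (QuotientGroup.mk (SpecialLinearGroup.toGL s) : RC.PG k m) =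
      QuotientGroup.mk (X * Y * X⁻¹ * Y⁻¹)
    congr 1
    ext1
    rw [hs]
    rfl
  have hcM : fSL k m s ∈ M := by
    rw [hfs, show x * y * x⁻¹ * y⁻¹ = x * (y * x⁻¹ * y⁻¹) by group]
    exact M.mul_mem hx (hM.conj_mem _ (M.inv_mem hx) y)
  have hc1 : fSL k m s ≠ 1 := by
    rw [hfs]
    intro h1
    apply hy
    rw [mul_inv_eq_one, mul_inv_eq_iff_eq_mul] at h1
    exact h1.symm
  haveI := hM
  haveI hM' : (M.comap (fSL k m)).Normal := inferInstance
  have htop : M.comap (fSL k m) = ⊤ := by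
    refine (H899.normal_le_center_or_top (M.comap (fSL k m))).resolve_left fun hle => hc1 ?_
    have h1 : s ∈ Subgroup.center (SpecialLinearGroup (Fin m) k) := hle hcM
    rw [Matrix.SpecialLinearGroup.mem_center_iff] at h1
    obtain ⟨r, -, hr⟩ := h1
    change (QuotientGroup.mk (SpecialLinearGroup.toGL s) : RC.PG k m) = 1
    rw [QuotientGroup.eq_one_iff, Matrix.GeneralLinearGroup.mem_center_iff_val_mem_range_scalar]
    exact ⟨r, hr⟩
  obtain ⟨i, j, hij⟩ := exists_pair_ne (Fin m)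
  obtain ⟨w, hw0, hw1⟩ := NormedField.exists_norm_lt_one k
  have hw : w ≠ 0 := norm_pos_iff.1 hw0
  refine ⟨fSL k m (SpecialLinearGroup.diag2n hij w hw), ?_,
    fSL k m (SpecialLinearGroup.transvection hij 1), ?_, ?_⟩
  · have h1 : SpecialLinearGroup.diag2n hij w hw ∈ M.comap (fSL k m) := by rw [htop]; trivial
    exact h1
  · intro h1
    change (QuotientGroup.mk (SpecialLinearGroup.toGL (SpecialLinearGroup.transvection hij 1)) :
      RC.PG k m) = 1 at h1
    rw [QuotientGroup.eq_one_iff, Matrix.GeneralLinearGroup.mem_center_iff_val_mem_range_scalar]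
      at h1
    obtain ⟨r, hr⟩ := h1
    have h2 := congrFun (congrFun hr i) j
    rw [Matrix.scalar_apply, Matrix.diagonal_apply_ne _ hij] at h2
    have h3 : (Matrix.transvection i j (1 : k)) i j = 0 := h2.symm
    rw [Matrix.transvection, Matrix.add_apply, Matrix.one_apply_ne hij, Matrix.single_apply_same,
      zero_add] at h3
    exact one_ne_zero h3
  · have h1 : ∀ n : ℕ, fSL k m (SpecialLinearGroup.diag2n hij w hw) ^ n *
        fSL k m (SpecialLinearGroup.transvection hij 1) *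
        (fSL k m (SpecialLinearGroup.diag2n hij w hw) ^ n)⁻¹ =
        (QuotientGroup.mk (tv i j hij ((w ^ 2) ^ n * 1)) : RC.PG k m) := by
      intro n
      rw [← map_pow, ← map_mul, ← map_inv, ← map_mul, diag_pow_conj]
      change (QuotientGroup.mk (SpecialLinearGroup.toGL _) : RC.PG k m) = _
      congr 1
      ext1
      rfl
    simp only [h1, mul_one]
    have h2 : Tendsto (fun n : ℕ => (w ^ 2) ^ n) atTop (𝓝 0) := by
      refine tendsto_pow_atTop_nhds_zero_of_norm_lt_one ?_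
      rw [norm_pow]
      exact pow_lt_one₀ (norm_nonneg _) hw1 two_ne_zero
    intro V hV
    exact ev_tv i j hij h2 hV

theorem tgpg [IsUltrametricDist k] [ProperSpace k] :
    IsTopologicalGroup (RC.PG k m) ∧ T2Space (RC.PG k m) := by
  refine ⟨inferInstance, ?_⟩
  haveI : IsClosed ((Subgroup.center (GL (Fin m) k) : Subgroup _) : Set (GL (Fin m) k)) := by
    have h1 : ((Subgroup.center (GL (Fin m) k) : Subgroup _) : Set (GL (Fin m) k)) =
        ⋂ h : GL (Fin m) k, {g | h * g = g * h} := by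
      ext g
      rw [SetLike.mem_coe, Subgroup.mem_center_iff, Set.mem_iInter]
      rfl
    rw [h1]
    exact isClosed_iInter fun h => isClosed_eq (continuous_const.mul continuous_id)
      (continuous_id.mul continuous_const)
  infer_instance

/-- **A subgroup with power bounded elements, normalised by the image of an injective continuous
endomorphism of `PGL_m(k)`, is trivial.** -/
theorem triv_of_norm [IsUltrametricDist k] [ProperSpace k] [CharZero k] (hm : 2 ≤ m)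
    (θ : RC.PG k m →* RC.PG k m) (hc : Continuous θ) (hi : Function.Injective θ)
    (N : Subgroup (RC.PG k m)) (hN : ∀ d, ∀ n ∈ N, θ d * n * (θ d)⁻¹ ∈ N)
    (hb : ∀ g ∈ N, ∃ C : Set (RC.PG k m), IsCompact C ∧ ∀ l : ℕ, g ^ l ∈ C) : N = ⊥ := by
  classical
  haveI := (tgpg (k := k) (m := m)).1
  haveI := (tgpg (k := k) (m := m)).2
  obtain ⟨p, q, K, -, -, -, h⟩ := grpH_pgl k (Fin m)
  obtain ⟨M, hM⟩ := open_range h θ hc hi
  have h1 : N.comap θ = ⊥ := by
    by_contra hne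
    have hnor : (N.comap θ).Normal := ⟨fun x hx y => by
      rw [Subgroup.mem_comap] at hx ⊢
      rw [map_mul, map_mul, map_inv]
      exact hN y _ hx⟩
    obtain ⟨g, hg, u, hu, ht⟩ := normal_hyp hm (N.comap θ) hnor hne
    obtain ⟨C, hC, hgC⟩ := hb (θ g) hg
    apply hu
    apply hi
    rw [map_one]
    refine contr hC hgC ?_
    have h2 : ∀ n : ℕ, θ g ^ n * θ u * (θ g ^ n)⁻¹ = θ (g ^ n * u * (g ^ n)⁻¹) := fun n => by
      rw [map_mul, map_mul, map_inv, map_pow]
    simp only [h2]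
    have h3 := (hc.tendsto 1).comp ht
    rw [map_one] at h3
    exact h3
  have h2 : ∀ n ∈ N, n ∈ K M → n = 1 := by
    intro n hn hnM
    obtain ⟨y, rfl⟩ := hM hnM
    have h3 : y ∈ N.comap θ := hn
    rw [h1, Subgroup.mem_bot] at h3
    rw [h3, map_one]
  refine (Subgroup.eq_bot_iff_forall _).2 fun n hn => ?_
  have h3 : (fun x => x * n * x⁻¹ * n⁻¹) ⁻¹' (K M : Set (RC.PG k m)) ∩ (K M : Set (RC.PG k m)) ∈
      𝓝 (1 : RC.PG k m) := by
    refine Filter.inter_mem ?_ ((h.opn M).mem_nhds (one_mem _))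
    refine ((h.opn M).preimage (by fun_prop)).mem_nhds ?_
    change 1 * n * 1⁻¹ * n⁻¹ ∈ K M
    rw [one_mul, inv_one, mul_one, mul_inv_cancel]
    exact one_mem _
  obtain ⟨r, hr⟩ := h.bas _ h3
  refine h.cent r n fun x hx => ?_
  obtain ⟨h4, h5⟩ := hr hx
  obtain ⟨d, rfl⟩ := hM h5
  have h6 : θ d * n * (θ d)⁻¹ * n⁻¹ ∈ N := N.mul_mem (hN d n hn) (N.inv_mem hn)
  have h7 := h2 _ h6 h4
  rw [mul_inv_eq_one, mul_inv_eq_iff_eq_mul] at h7
  exact h7

end normal

end Vale.Agent.P092.H828.CX
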