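import Vale.Agent.P092.H729.C7F
import Vale.Agent.P092.H144.GeoB
import Vale.Agent.P092.H828.CXg

/-!
P092 (helper828), team C, block [C-X]: the two legs commute, for `SL_(m+1)(k)`, every `m ≥ 2`.
-/

set_option linter.all false

open Topology Filter Set Matrix

namespace Vale.Agent.P092.H828.CX

open Vale.Agent.P092.RC Vale.Agent.P092.H144.Geo
open Vale.Agent.P092.SR (CO COS)

variable {k : Type} [NontriviallyNormedField k] {m : ℕ}

theorem det_ne' (u : GL (Fin m) k) : u.1.det ≠ 0 :=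
  ((Matrix.isUnit_iff_isUnit_det _).1 u.isUnit).ne_zero

/-- the Levi embedding -/
noncomputable def jm (u : GL (Fin m) k) : GG k m :=
  ⟨dm (u.1.det)⁻¹ u.1, by rw [dm_det, inv_mul_cancel₀ (det_ne' u)]⟩

theorem jm_y0 (u : GL (Fin m) k) : jm u • (y0 : YY k m) = y0 := by
  refine smul_eq_y0 (jm u) (u.1.det)⁻¹ ?_
  rw [Matrix.mulVec_single_one]
  funext a
  refine Fin.cases ?_ (fun i => ?_) a
  · change (u.1.det)⁻¹ = _
    simp
  · change (0 : k) = _
    simp

theorem jm_cc (u : GL (Fin m) k) : cc (jm u) (y0 : YY k m) = QuotientGroup.mk u := by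
  have hu : blk (jm u) (y0 : YY k m) = u.1 := by
    rw [blk_eq]
    unfold MM
    rw [jm_y0, sct_y0, inv_one, one_mul, mul_one]
    rfl
  have h : IsUnit (blk (jm u) (y0 : YY k m)) := by rw [hu]; exact u.isUnit
  unfold cc
  rw [dif_pos h]
  congr 1
  apply Units.ext
  rw [IsUnit.unit_spec, hu]

theorem jm_cont : Continuous (jm : GL (Fin m) k → GG k m) := by
  refine Continuous.subtype_mk (f := fun u : GL (Fin m) k => dm (u.1.det)⁻¹ u.1) ?_ _
  have hd : Continuous fun u : GL (Fin m) k => u.1.det⁻¹ :=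
    (Units.continuous_val.matrix_det).inv₀ fun u => det_ne' u
  have he : ∀ i j, Continuous fun u : GL (Fin m) k => u.1 i j := fun i j =>
    Units.continuous_val.matrix_elem i j
  refine continuous_matrix fun i j => ?_
  refine Fin.cases ?_ (fun i => ?_) i
  · refine Fin.cases ?_ (fun j => ?_) j
    · exact hd
    · exact continuous_const
  · refine Fin.cases ?_ (fun j => ?_) j
    · exact continuous_const
    · exact he i j

/-- The homomorphism `PGL_m(k) → PGL_m(k)` given by `δ`. -/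
theorem exists_theta {δ : GG k m → PG k m}
    (hmul : ∀ p p' : GG k m, p • (y0 : YY k m) = y0 → p' • (y0 : YY k m) = y0 →
      δ (p * p') = δ p * δ p')
    (hker : ∀ p : GG k m, p • (y0 : YY k m) = y0 → (δ p = 1 ↔ cc p (y0 : YY k m) = 1))
    (hcont : Continuous fun p : {p : GG k m // p • (y0 : YY k m) = y0} => δ p)
    (hcc : ∀ (g h : GG k m) (y : YY k m), cc (g * h) y = cc g (h • y) * cc h y) :
    ∃ θ : PG k m →* PG k m, Continuous θ ∧ Function.Injective θ ∧
      ∀ u : GL (Fin m) k, θ (QuotientGroup.mk u) = δ (jm u) := by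
  have key : ∀ p p' : GG k m, p • (y0 : YY k m) = y0 → p' • (y0 : YY k m) = y0 →
      cc p (y0 : YY k m) = cc p' (y0 : YY k m) → δ p = δ p' := by
    intro p p' hp hp' h
    have h1 : (p'⁻¹ : GG k m) • (y0 : YY k m) = y0 := by rw [inv_smul_eq_iff, hp']
    have h2 : (p'⁻¹ * p) • (y0 : YY k m) = y0 := by rw [mul_smul, hp, h1]
    have h3 : cc (p'⁻¹ * p) (y0 : YY k m) = 1 := by
      rw [hcc, hp, h, ← congrArg (cc p'⁻¹) hp', ← hcc, inv_mul_cancel]
      have h4 := hcc 1 1 (y0 : YY k m)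
      rw [mul_one, one_smul] at h4
      exact left_eq_mul.mp h4
    have h4 : δ (p'⁻¹ * p) = 1 := (hker _ h2).2 h3
    have h5 : δ p = δ p' * δ (p'⁻¹ * p) := by
      rw [← hmul _ _ hp' h2, mul_inv_cancel_left]
    rw [h5, h4, mul_one]
  let θ₀ : GL (Fin m) k →* PG k m := MonoidHom.mk' (fun u => δ (jm u)) fun u v => by
    rw [← hmul _ _ (jm_y0 u) (jm_y0 v)]
    refine key _ _ (jm_y0 _) (by rw [mul_smul, jm_y0, jm_y0]) ?_
    rw [hcc, jm_y0, jm_cc, jm_cc, jm_cc, QuotientGroup.mk_mul]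
  have hθ₀ : ∀ u, θ₀ u = δ (jm u) := fun u => rfl
  have hk : Subgroup.center (GL (Fin m) k) ≤ θ₀.ker := by
    intro u hu
    rw [MonoidHom.mem_ker, hθ₀, hker _ (jm_y0 u), jm_cc, QuotientGroup.eq_one_iff]
    exact hu
  have hc₀ : Continuous θ₀ := by
    have h1 : Continuous fun u : GL (Fin m) k =>
        (⟨jm u, jm_y0 u⟩ : {p : GG k m // p • (y0 : YY k m) = y0}) :=
      jm_cont.subtype_mk _
    exact hcont.comp h1
  refine ⟨QuotientGroup.lift _ θ₀ hk, ?_, ?_, fun u => rfl⟩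
  · exact hc₀.quotient_lift _
  · rw [injective_iff_map_eq_one]
    intro x hx
    obtain ⟨u, rfl⟩ := QuotientGroup.mk_surjective x
    change δ (jm u) = 1 at hx
    rw [hker _ (jm_y0 u), jm_cc] at hx
    exact hx

/-- **[C7-R]** for `SL_(m+1)(k)`, `m ≥ 2`. -/
theorem crossStmt (hG : GeoStmt) (m : ℕ) (hm : 2 ≤ m) : CrossStmt m := by
  intro k _ _ _ _ Γ K _ _ _ _ π lam₁ lam₂ X Ω q₁ q₂ E₁ E₂ δ₁ δ₂ Q₁ Q₂ _ _ _ l₁ l₂ _ h₁ h₂
  have geo := hG k m (by omega)
  refine H729.cross geo l₁.cpv l₂.cpv (H729.basis_SL k m) (H729.basis_PG k m) h₁ h₂ ?_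
  intro N hN hb
  obtain ⟨θ, hc, hi, hθ⟩ := exists_theta h₂.δmul h₂.δker h₂.δcont geo.mul
  refine triv_of_norm hm θ hc hi N (fun d n hn => ?_) hb
  obtain ⟨u, rfl⟩ := QuotientGroup.mk_surjective d
  rw [hθ]
  exact hN _ (jm_y0 u) n hn

end Vale.Agent.P092.H828.CX
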