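import Vale.Agent.P092.H828.EndB
import Vale.Agent.P092.SR.Defs

/-!
P092 (helper828), project B, block B-END in the letters of `SR/Defs`.
-/

set_option linter.all false

open scoped InnerProductSpace
open Filter Topology ContinuousLinearMap

namespace Vale.Agent.P092.H828

open Vale.Agent.P092.SR

section small

/-- Finitely many nontrivial elements avoid a small compact open subgroup. -/
theorem exists_cos {Γ G : Type} [Group Γ] [Group G] [TopologicalSpace G] (hG : GoodGrp G)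
    (p : Γ →* G) (hp : Function.Injective p) (F : Set Γ) (hF : F.Finite) :
    ∃ K : Subgroup G, COS K ∧ ∀ g ∈ F, p g ∈ K → g = 1 := by
  classical
  haveI := hG.top
  haveI := hG.t2
  obtain ⟨K, hK, hKU⟩ := hG.basis (p '' (F \ {1}))ᶜ
    ((hF.subset Set.diff_subset).image p).isClosed.isOpen_compl (by
      rintro ⟨g, ⟨_, hg⟩, h1⟩
      refine hg (hp ?_)
      rw [h1, map_one])
  refine ⟨K, hK, fun g hg hgK => ?_⟩
  by_contra hn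
  exact hKU hgK ⟨g, ⟨hg, hn⟩, rfl⟩

/-- The lattice avoids a small compact open box. -/
theorem exists_small {Γ G₁ G₂ : Type} [Group Γ] [Group G₁] [Group G₂] [TopologicalSpace G₁]
    [TopologicalSpace G₂] (hG₁ : GoodGrp G₁) (hG₂ : GoodGrp G₂) {p₁ : Γ →* G₁} {p₂ : Γ →* G₂}
    (h1 : Function.Injective p₁) (hd : ∀ (C₁ : Set G₁) (C₂ : Set G₂), IsCompact C₁ → IsCompact C₂ →
      {g : Γ | p₁ g ∈ C₁ ∧ p₂ g ∈ C₂}.Finite) :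
    ∃ (K₁ : Subgroup G₁) (K₂ : Subgroup G₂), COS K₁ ∧ COS K₂ ∧
      ∀ g, p₁ g ∈ K₁ → p₂ g ∈ K₂ → g = 1 := by
  obtain ⟨L₁, hL₁, _⟩ := hG₁.basis Set.univ isOpen_univ (Set.mem_univ _)
  obtain ⟨L₂, hL₂, _⟩ := hG₂.basis Set.univ isOpen_univ (Set.mem_univ _)
  obtain ⟨K, hK, h⟩ := exists_cos hG₁ p₁ h1 _ (hd L₁ L₂ hL₁.1 hL₂.1)
  refine ⟨K ⊓ L₁, L₂, ⟨?_, ?_⟩, hL₂, fun g hg hg2 => h g ⟨(Subgroup.mem_inf.mp hg).2, hg2⟩
    (Subgroup.mem_inf.mp hg).1⟩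
  · haveI := hG₁.t2
    have e : ((K ⊓ L₁ : Subgroup G₁) : Set G₁) = (K : Set G₁) ∩ L₁ := rfl
    rw [e]
    exact hK.1.inter hL₁.1
  · have e : ((K ⊓ L₁ : Subgroup G₁) : Set G₁) = (K : Set G₁) ∩ L₁ := rfl
    rw [e]
    exact hK.2.inter hL₁.2

/-- The same after homeomorphic isomorphisms of the two factors. -/
theorem exists_small_map {Γ G₁ G₂ H₁ H₂ : Type} [Group Γ] [Group G₁] [Group G₂] [Group H₁]
    [Group H₂] [TopologicalSpace G₁] [TopologicalSpace G₂] [TopologicalSpace H₁]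
    [TopologicalSpace H₂] (hG₁ : GoodGrp G₁) (hG₂ : GoodGrp G₂) {p₁ : Γ →* G₁} {p₂ : Γ →* G₂}
    (h1 : Function.Injective p₁) (hd : ∀ (C₁ : Set G₁) (C₂ : Set G₂), IsCompact C₁ → IsCompact C₂ →
      {g : Γ | p₁ g ∈ C₁ ∧ p₂ g ∈ C₂}.Finite) (ψ₁ : G₁ ≃ₜ* H₁) (ψ₂ : G₂ ≃ₜ* H₂) :
    ∃ (K₁ : Subgroup H₁) (K₂ : Subgroup H₂), COS K₁ ∧ COS K₂ ∧
      ∀ g, ψ₁ (p₁ g) ∈ K₁ → ψ₂ (p₂ g) ∈ K₂ → g = 1 := by
  obtain ⟨K₁, K₂, c1, c2, h⟩ := exists_small hG₁ hG₂ h1 hd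
  refine ⟨K₁.map ψ₁.toMulEquiv.toMonoidHom, K₂.map ψ₂.toMulEquiv.toMonoidHom, ⟨?_, ?_⟩, ⟨?_, ?_⟩,
    ?_⟩
  · exact c1.1.image ψ₁.continuous
  · exact ψ₁.toHomeomorph.isOpenMap _ c1.2
  · exact c2.1.image ψ₂.continuous
  · exact ψ₂.toHomeomorph.isOpenMap _ c2.2
  · rintro g ⟨a, ha, ha2⟩ ⟨b, hb, hb2⟩
    have e1 : a = p₁ g := ψ₁.injective ha2
    have e2 : b = p₂ g := ψ₂.injective hb2
    exact h g (e1 ▸ ha) (e2 ▸ hb)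

end small

variable {Γ ℋ : Type} [Group Γ] [NormedAddCommGroup ℋ] [InnerProductSpace ℂ ℋ] [CompleteSpace ℋ]

/-- A compact open set on which all translates of a compact open subgroup vanish. -/
theorem PFam.nd_coset {H : Type} [Group H] [TopologicalSpace H] (hH : GoodGrp H) {p q : Γ →* H}
    {S T : Γ →* (ℋ →L[ℂ] ℋ)} {sc : Set (ℋ →L[ℂ] ℋ)} {P : Set H → (ℋ →L[ℂ] ℋ)}
    (h : PFam p q S T sc P) (K : Subgroup H) (hK : COS K) (v : ℋ)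
    (hv : ∀ y : H, P ((fun z => y * z) '' (K : Set H)) v = 0) : v = 0 := by
  classical
  haveI := hH.top
  haveI := hH.t2
  refine h.nondeg v fun C hC => ?_
  have hL : ∀ y : H, CO ((fun z => y * z) '' (K : Set H)) := fun y =>
    ⟨hK.1.image (continuous_const_mul y), (isOpenMap_mul_left y) _ hK.2⟩
  have hemp : P ∅ = 0 := by
    have h1 := h.add ∅ ∅ ⟨isCompact_empty, isOpen_empty⟩ ⟨isCompact_empty, isOpen_empty⟩
      (Set.disjoint_empty _)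
    rw [Set.union_empty] at h1
    have h2 : P ∅ + 0 = P ∅ + P ∅ := by rw [add_zero]; exact h1
    exact (add_left_cancel h2).symm
  have hU : ∀ s : Finset H, CO (⋃ y ∈ s, (fun z => y * z) '' (K : Set H)) := fun s =>
    ⟨s.isCompact_biUnion fun y _ => (hL y).1, isOpen_biUnion fun y _ => (hL y).2⟩
  have hinter : ∀ A B : Set H, CO A → CO B → CO (A ∩ B) := fun A B a b =>
    ⟨a.1.inter b.1, a.2.inter b.2⟩
  have hdiff : ∀ A B : Set H, CO A → CO B → CO (A \ B) := fun A B a b =>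
    ⟨a.1.diff b.2, a.2.sdiff b.1.isClosed⟩
  have key : ∀ s : Finset H, P (C ∩ ⋃ y ∈ s, (fun z => y * z) '' (K : Set H)) v = 0 := by
    intro s
    induction s using Finset.induction_on with
    | empty =>
      simp only [Finset.notMem_empty, Set.iUnion_of_empty, Set.iUnion_empty, Set.inter_empty]
      rw [hemp]; rfl
    | insert a s ha ih =>
      obtain ⟨A, hA⟩ : ∃ A, A = (fun z => a * z) '' (K : Set H) := ⟨_, rfl⟩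
      obtain ⟨B, hB⟩ : ∃ B, B = ⋃ y ∈ s, (fun z => y * z) '' (K : Set H) := ⟨_, rfl⟩
      have cA : CO A := by rw [hA]; exact hL a
      have cB : CO B := by rw [hB]; exact hU s
      have hvA : P A v = 0 := by rw [hA]; exact hv a
      rw [← hB] at ih
      have e1 : (⋃ y ∈ insert a s, (fun z => y * z) '' (K : Set H)) = A ∪ B := by
        rw [Finset.set_biUnion_insert, hA, hB]
      rw [e1]
      have e2 : C ∩ (A ∪ B) = (C ∩ B) ∪ ((C ∩ A) \ B) := by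
        ext z
        simp only [Set.mem_inter_iff, Set.mem_union, Set.mem_diff]
        tauto
      have c1 := hinter C B hC cB
      have c2 := hdiff _ B (hinter C A hC cA) cB
      rw [e2, h.add _ _ c1 c2 (by
        rw [Set.disjoint_left]
        rintro z ⟨_, hz⟩ ⟨_, hz'⟩
        exact hz' hz), ContinuousLinearMap.add_apply, ih, zero_add]
      have e3 : (C ∩ A) \ B = ((C ∩ A) \ B) ∩ A := by
        ext z
        simp only [Set.mem_inter_iff, Set.mem_diff]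
        tauto
      rw [e3, ← h.mul _ _ c2 cA]
      change P ((C ∩ A) \ B) (P A v) = 0
      rw [hvA, map_zero]
  obtain ⟨s, hs⟩ := hC.1.elim_finite_subcover (fun y : H => (fun z => y * z) '' (K : Set H))
    (fun y => (hL y).2) fun z _ => Set.mem_iUnion.mpr ⟨z, 1, K.one_mem, mul_one z⟩
  have e : C ∩ (⋃ y ∈ s, (fun z => y * z) '' (K : Set H)) = C := Set.inter_eq_left.mpr hs
  have := key s
  rwa [e] at this

/-- Conversion of a `PFam`, first leg. -/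
theorem PFam.cov {H X : Type} [Group H] [Group X] [TopologicalSpace H] (hH : GoodGrp H)
    {p q : Γ →* H} {S T : Γ →* (ℋ →L[ℂ] ℋ)} {sc : Set (ℋ →L[ℂ] ℋ)} {P : Set H → (ℋ →L[ℂ] ℋ)}
    (h : PFam p q S T sc P) {R : X → (ℋ →L[ℂ] ℋ)} {r : X → H}
    (hR : ∀ x C, CO C → R x * P C * R x⁻¹ = P ((fun y => y * (r x)⁻¹) '' C)) :
    CovProj R (fun g => S g) (fun g => p g) r P := by
  have hemp : P ∅ = 0 := by
    have h1 := h.add ∅ ∅ ⟨isCompact_empty, isOpen_empty⟩ ⟨isCompact_empty, isOpen_empty⟩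
      (Set.disjoint_empty _)
    rw [Set.union_empty] at h1
    have h2 : P ∅ + 0 = P ∅ + P ∅ := by rw [add_zero]; exact h1
    exact (add_left_cancel h2).symm
  refine ⟨?_, ?_, ?_, ?_, ?_, ?_, ?_⟩
  · intro C a b
    rw [h.mul C C ⟨a, b⟩ ⟨a, b⟩, Set.inter_self]
  · exact fun C a b => h.adj C ⟨a, b⟩
  · intro C D a b c d
    rw [h.mul C D ⟨a, b⟩ ⟨c, d⟩, h.mul D C ⟨c, d⟩ ⟨a, b⟩, Set.inter_comm]
  · intro C D a b c d hd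
    rw [h.mul C D ⟨a, b⟩ ⟨c, d⟩, Set.disjoint_iff_inter_eq_empty.mp hd, hemp]
  · intro K a b v hv
    exact PFam.nd_coset hH h K ⟨a, b⟩ v hv
  · exact fun g C a b => h.covS g C ⟨a, b⟩
  · exact fun x C a b => hR x C ⟨a, b⟩

/-- The representation of `Γ × Γ`. -/
def RR (R₁ R₂ : Γ →* (ℋ →L[ℂ] ℋ)) (x : Γ × Γ) : ℋ →L[ℂ] ℋ := R₁ x.1 * R₂ x.2

theorem RR_urep {ι : Type} [Fintype ι] {V R₁ R₂ : Γ →* (ℋ →L[ℂ] ℋ)} {ξ : ι → ℋ}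
    (hT : Tri V R₁ R₂ ξ) : URep (RR R₁ R₂) where
  one := by rw [RR, Prod.fst_one, Prod.snd_one, map_one, map_one, one_mul]
  mul x y := by
    rw [RR, RR, RR, Prod.fst_mul, Prod.snd_mul, map_mul, map_mul]
    calc R₁ x.1 * R₁ y.1 * (R₂ x.2 * R₂ y.2) = R₁ x.1 * (R₁ y.1 * R₂ x.2) * R₂ y.2 := by
          simp only [mul_assoc]
      _ = R₁ x.1 * R₂ x.2 * (R₁ y.1 * R₂ y.2) := by
          rw [hT.comm₁₂]; simp only [mul_assoc]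
  adj x := by
    rw [RR, RR, ← star_eq_adjoint, star_mul, star_eq_adjoint, star_eq_adjoint, hT.adj₁, hT.adj₂,
      Prod.fst_inv, Prod.snd_inv, hT.comm₁₂]

theorem Tri.frm {ι : Type} [Fintype ι] {V R₁ R₂ : Γ →* (ℋ →L[ℂ] ℋ)} {ξ : ι → ℋ}
    (hT : Tri V R₁ R₂ ξ) (hd : ∑ k, ‖ξ k‖ ^ 2 = 1) : Frm (RR R₁ R₂) ξ where
  toURep := RR_urep hT
  frame := hT.frame
  dim := hd

theorem Tri.V_urep {ι : Type} [Fintype ι] {V R₁ R₂ : Γ →* (ℋ →L[ℂ] ℋ)} {ξ : ι → ℋ}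
    (hT : Tri V R₁ R₂ ξ) : URep (fun g => V g) where
  one := map_one V
  mul := map_mul V
  adj := hT.adjV

/-- **B-END in the letters of `SR/Defs`**: two places with families in both legs.  `p₁`, `p₂` are
the source places, `q₁`, `q₂` the target maps of the first leg, `q₁'`, `q₂'` those of the second
leg. -/
theorem end_sr {H₁ H₂ ι : Type} [Group H₁] [Group H₂] [TopologicalSpace H₁] [TopologicalSpace H₂]
    [Fintype ι] (hH₁ : GoodGrp H₁) (hH₂ : GoodGrp H₂) {V R₁ R₂ : Γ →* (ℋ →L[ℂ] ℋ)} {ξ : ι → ℋ}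
    (hT : Tri V R₁ R₂ ξ) (hd : ∑ k, ‖ξ k‖ ^ 2 = 1)
    {p₁ q₁ q₁' : Γ →* H₁} {p₂ q₂ q₂' : Γ →* H₂} {sc sc' : Set (ℋ →L[ℂ] ℋ)}
    (hsc : ∀ g, R₂ g ∈ sc) (hsc' : ∀ g, R₁ g ∈ sc')
    {P₁ P₁' : Set H₁ → (ℋ →L[ℂ] ℋ)} {P₂ P₂' : Set H₂ → (ℋ →L[ℂ] ℋ)}
    (h₁ : PFam p₁ q₁ V R₁ sc P₁) (h₂ : PFam p₂ q₂ V R₁ sc P₂)
    (h₁' : PFam p₁ q₁' V R₂ sc' P₁') (h₂' : PFam p₂ q₂' V R₂ sc' P₂')
    (c12 : ∀ C D, CO C → CO D → P₁ C * P₂ D = P₂ D * P₁ C)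
    (c12' : ∀ C D, CO C → CO D → P₁' C * P₂' D = P₂' D * P₁' C)
    (d11 : ∀ C D, CO C → CO D → P₁ C * P₁' D = P₁' D * P₁ C)
    (d12 : ∀ C D, CO C → CO D → P₁ C * P₂' D = P₂' D * P₁ C)
    (d21 : ∀ C D, CO C → CO D → P₂ C * P₁' D = P₁' D * P₂ C)
    (d22 : ∀ C D, CO C → CO D → P₂ C * P₂' D = P₂' D * P₂ C)
    (hK : ∃ (K₁ : Subgroup H₁) (K₂ : Subgroup H₂), COS K₁ ∧ COS K₂ ∧
      ∀ g, q₁ g ∈ K₁ → q₂ g ∈ K₂ → g = 1)
    (hK' : ∃ (K₁ : Subgroup H₁) (K₂ : Subgroup H₂), COS K₁ ∧ COS K₂ ∧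
      ∀ g, q₁' g ∈ K₁ → q₂' g ∈ K₂ → g = 1) :
    ∃ (w : ℋ) (δ : Γ →* Γ × Γ) (χ : Γ →* ℂ), ‖w‖ = 1 ∧
      (∀ a b : Γ, (a, b) ≠ (1, 1) → ⟪w, R₁ a (R₂ b w)⟫_ℂ = 0) ∧
      (∀ η : ℋ, (∀ a b : Γ, ⟪R₁ a (R₂ b w), η⟫_ℂ = 0) → η = 0) ∧
      (∀ g, ‖χ g‖ = 1) ∧ ∀ g, V g w = χ g • R₁ (δ g).1⁻¹ (R₂ (δ g).2⁻¹ w) := by
  haveI := hH₁.top
  haveI := hH₂.top
  obtain ⟨k, hk⟩ := hT.ne
  obtain ⟨K₁, K₂, a1, a2, a3⟩ := hK
  obtain ⟨K₁', K₂', a1', a2', a3'⟩ := hK'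
  have hf := Tri.frm hT hd
  have i1 : ∀ g, R₁ g * R₁ g⁻¹ = 1 := fun g => by rw [← map_mul, mul_inv_cancel, map_one]
  have i2 : ∀ g, R₂ g * R₂ g⁻¹ = 1 := fun g => by rw [← map_mul, mul_inv_cancel, map_one]
  have covL : ∀ {H : Type} [Group H] [TopologicalSpace H] {p q : Γ →* H}
      {P : Set H → (ℋ →L[ℂ] ℋ)}, PFam p q V R₁ sc P → ∀ (x : Γ × Γ) (C : Set H), CO C →
      RR R₁ R₂ x * P C * RR R₁ R₂ x⁻¹ = P ((fun y => y * (q x.1)⁻¹) '' C) := by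
    intro H _ _ p q P h x C hC
    have e1 : R₂ x.2 * P C = P C * R₂ x.2 := h.comm _ (hsc _) C hC
    rw [RR, RR, Prod.fst_inv, Prod.snd_inv, ← h.covT x.1 C hC]
    calc R₁ x.1 * R₂ x.2 * P C * (R₁ x.1⁻¹ * R₂ x.2⁻¹)
        = R₁ x.1 * (R₂ x.2 * P C) * (R₁ x.1⁻¹ * R₂ x.2⁻¹) := by simp only [mul_assoc]
      _ = R₁ x.1 * P C * (R₂ x.2 * (R₂ x.2⁻¹ * R₁ x.1⁻¹)) := by
          rw [e1, hT.comm₁₂]; simp only [mul_assoc]
      _ = R₁ x.1 * P C * R₁ x.1⁻¹ := by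
          rw [← mul_assoc (R₂ x.2), i2, one_mul]
  have covR : ∀ {H : Type} [Group H] [TopologicalSpace H] {p q : Γ →* H}
      {P : Set H → (ℋ →L[ℂ] ℋ)}, PFam p q V R₂ sc' P → ∀ (x : Γ × Γ) (C : Set H), CO C →
      RR R₁ R₂ x * P C * RR R₁ R₂ x⁻¹ = P ((fun y => y * (q x.2)⁻¹) '' C) := by
    intro H _ _ p q P h x C hC
    have e1 : R₁ x.1 * P C = P C * R₁ x.1 := h.comm _ (hsc' _) C hC
    rw [RR, RR, Prod.fst_inv, Prod.snd_inv, ← h.covT x.2 C hC]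
    calc R₁ x.1 * R₂ x.2 * P C * (R₁ x.1⁻¹ * R₂ x.2⁻¹)
        = R₂ x.2 * (R₁ x.1 * P C) * (R₁ x.1⁻¹ * R₂ x.2⁻¹) := by
          rw [hT.comm₁₂]; simp only [mul_assoc]
      _ = R₂ x.2 * P C * (R₁ x.1 * (R₁ x.1⁻¹ * R₂ x.2⁻¹)) := by
          rw [e1]; simp only [mul_assoc]
      _ = R₂ x.2 * P C * R₂ x.2⁻¹ := by
          rw [← mul_assoc (R₁ x.1), i1, one_mul]
  obtain ⟨w, δ, χ, b1, b2, b3⟩ := end_four' (E := ℋ) (X := Γ × Γ) (Γ := Γ) (R := RR R₁ R₂)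
    (V := fun g => V g) (ξ := ξ k) hk hf.toURep hf.wan (Tri.V_urep hT)
    (fun g x => by
      change V g * (R₁ x.1 * R₂ x.2) = R₁ x.1 * R₂ x.2 * V g
      rw [← mul_assoc, hT.comm₁, mul_assoc, hT.comm₂, mul_assoc])
    (PFam.cov hH₁ h₁ (r := fun x : Γ × Γ => q₁ x.1) (covL h₁))
    (PFam.cov hH₂ h₂ (r := fun x : Γ × Γ => q₂ x.1) (covL h₂))
    (PFam.cov hH₁ h₁' (r := fun x : Γ × Γ => q₁' x.2) (covR h₁'))
    (PFam.cov hH₂ h₂' (r := fun x : Γ × Γ => q₂' x.2) (covR h₂'))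
    (fun C D a b c d => c12 C D ⟨a, b⟩ ⟨c, d⟩) (fun C D a b c d => d11 C D ⟨a, b⟩ ⟨c, d⟩)
    (fun C D a b c d => d12 C D ⟨a, b⟩ ⟨c, d⟩) (fun C D a b c d => d21 C D ⟨a, b⟩ ⟨c, d⟩)
    (fun C D a b c d => d22 C D ⟨a, b⟩ ⟨c, d⟩) (fun C D a b c d => c12' C D ⟨a, b⟩ ⟨c, d⟩)
    K₁ K₂ K₁' K₂' a1.1 a2.1 a1'.1 a2'.1 a1.2 a2.2 a1'.2 a2'.2
    (fun x u1 u2 u3 u4 => Prod.ext (a3 _ u1 u2) (a3' _ u3 u4))
  refine ⟨w, δ, χ, b1.norm_one, fun a b hab => b1.orth (a, b) hab, fun η hη => b1.total η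
    fun x => hη x.1 x.2, b2, fun g => b3 g⟩

end Vale.Agent.P092.H828
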