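import Vale.Agent.P092.H828.EndSR

/-!
P092 (helper828), project B, block B-END for all amplifications: a finite set of unit vectors with
uniform overlap.
-/

set_option linter.all false

open scoped InnerProductSpace
open Filter Topology ContinuousLinearMap

namespace Vale.Agent.P092.H828

section abs

variable {E : Type*} [NormedAddCommGroup E] [InnerProductSpace ℂ E] [CompleteSpace E]
variable {X Γ : Type*} [Group X] [Group Γ]

theorem exists_max {T : ℝ} (S : ℕ → Prop) (h0 : S 0) (hb : ∀ m, S m → (m : ℝ) ≤ T) :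
    ∃ m, S m ∧ ¬ S (m + 1) := by
  by_contra hn
  push Not at hn
  have h1 : ∀ m, S m := fun m => by
    induction m with
    | zero => exact h0
    | succ m ih => exact hn m ih
  have h2 := hb _ (h1 (⌊T⌋₊ + 1))
  have h3 := Nat.lt_floor_add_one T
  push_cast at h2
  linarith

theorem orthonormal_snoc {m : ℕ} {u : Fin m → E} (hu : Orthonormal ℂ u) {w : E} (hw : ‖w‖ = 1)
    (h : ∀ i, ⟪u i, w⟫_ℂ = 0) : Orthonormal ℂ (Fin.snoc u w : Fin (m + 1) → E) := by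
  constructor
  · intro i
    refine Fin.lastCases ?_ (fun i => ?_) i
    · rw [Fin.snoc_last]; exact hw
    · rw [Fin.snoc_castSucc]; exact hu.1 i
  · intro i j hij
    revert hij
    refine Fin.lastCases ?_ (fun i => ?_) i
    · refine Fin.lastCases ?_ (fun j => ?_) j
      · intro h1; exact absurd rfl h1
      · intro _
        change ⟪(Fin.snoc u w : Fin (m + 1) → E) (Fin.last m),
          (Fin.snoc u w : Fin (m + 1) → E) j.castSucc⟫_ℂ = 0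
        rw [Fin.snoc_last, Fin.snoc_castSucc, ← inner_conj_symm, h, map_zero]
    · refine Fin.lastCases ?_ (fun j => ?_) j
      · intro _
        change ⟪(Fin.snoc u w : Fin (m + 1) → E) i.castSucc,
          (Fin.snoc u w : Fin (m + 1) → E) (Fin.last m)⟫_ℂ = 0
        rw [Fin.snoc_last, Fin.snoc_castSucc, h]
      · intro hij
        change ⟪(Fin.snoc u w : Fin (m + 1) → E) i.castSucc,
          (Fin.snoc u w : Fin (m + 1) → E) j.castSucc⟫_ℂ = 0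
        rw [Fin.snoc_castSucc, Fin.snoc_castSucc]
        exact hu.2 fun h1 => hij (by rw [h1])

/-- The frame condition. -/
def IsFrame {ι : Type*} [Fintype ι] (R : X → (E →L[ℂ] E)) (ξ : ι → E) : Prop :=
  ∀ η : E, HasSum (fun p : ι × X => ‖⟪R p.2 (ξ p.1), η⟫_ℂ‖ ^ 2) (‖η‖ ^ 2)

theorem frame_flip {ι : Type*} [Fintype ι] {R : X → (E →L[ℂ] E)} {ξ : ι → E} (hU : URep R)
    (hf : IsFrame R ξ) (v : E) : ∑ k, ∑' x : X, ‖⟪R x v, ξ k⟫_ℂ‖ ^ 2 = ‖v‖ ^ 2 := by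
  have h2 : HasSum (fun p : ι × X => ‖⟪R p.2 v, ξ p.1⟫_ℂ‖ ^ 2) (‖v‖ ^ 2) := by
    have h3 := hf v
    have h5 := (Equiv.prodCongr (Equiv.refl ι) (Equiv.inv X)).hasSum_iff.mpr h3
    refine h5.congr_fun ?_ |> id
    rintro ⟨k, x⟩
    simp only [Function.comp_apply, Equiv.prodCongr_apply, Prod.map_apply, Equiv.refl_apply,
      Equiv.inv_apply]
    rw [hU.inner_left x⁻¹, inv_inv, ← inner_conj_symm, RCLike.norm_conj]
  have hs : ∀ k, Summable fun x : X => ‖⟪R x v, ξ k⟫_ℂ‖ ^ 2 := fun k =>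
    (h2.summable.comp_injective (i := fun x : X => ((k, x) : ι × X))
      fun a b hab => (Prod.mk.inj hab).2)
  have h6 := h2.prod_fiberwise fun k => (hs k).hasSum
  rw [← h6.tsum_eq, tsum_fintype]

/-- The size of a wandering system is bounded by the dimension. -/
theorem wsys_card {ι : Type*} [Fintype ι] {R : X → (E →L[ℂ] E)} {ξ : ι → E} (hU : URep R)
    (hf : IsFrame R ξ) {m : ℕ} {u : Fin m → E}
    (hu : Orthonormal ℂ fun p : Fin m × X => R p.2 (u p.1)) : (m : ℝ) ≤ ∑ k, ‖ξ k‖ ^ 2 := by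
  have h1 : ∀ i, ∑ k, ∑' x : X, ‖⟪R x (u i), ξ k⟫_ℂ‖ ^ 2 = 1 := by
    intro i
    rw [frame_flip hU hf]
    have h2 := hu.1 (i, 1)
    simp only at h2
    rw [hU.one_apply] at h2
    rw [h2, one_pow]
  have h2 : (m : ℝ) = ∑ i : Fin m, ∑ k, ∑' x : X, ‖⟪R x (u i), ξ k⟫_ℂ‖ ^ 2 := by
    rw [Finset.sum_congr rfl fun i _ => h1 i]
    simp
  rw [h2, Finset.sum_comm]
  refine Finset.sum_le_sum fun k _ => ?_
  have h3 := hu.tsum_inner_products_le (x := ξ k)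
  have h4 := (hu.inner_products_summable (x := ξ k))
  rw [h4.tsum_prod, tsum_fintype] at h3
  exact h3

variable {R : X → (E →L[ℂ] E)} {V : Γ → (E →L[ℂ] E)}

theorem mul_zero_of_conj (hU : URep R) {A B : E →L[ℂ] E} {x : X} (h : A * (R x * B * R x⁻¹) = 0)
    (v : E) : A (R x (B v)) = 0 := by
  have h1 := congrArg (fun T : E →L[ℂ] E => T (R x v)) h
  have h2 : A (R x (B (R x⁻¹ (R x v)))) = 0 := h1
  rwa [hU.inv_apply] at h2

/-- The range of a projection with orthogonal translates is finite-dimensional. -/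
theorem exists_onb {ι : Type*} [Fintype ι] {ξ : ι → E} (hU : URep R) (hf : IsFrame R ξ)
    {F : E →L[ℂ] E} (hF : F * F = F) (hFa : adjoint F = F)
    (hFo : ∀ x, x ≠ 1 → F * (R x * F * R x⁻¹) = 0) :
    ∃ (f : ℕ) (ζ : Fin f → E), Orthonormal ℂ ζ ∧ (∀ i, F (ζ i) = ζ i) ∧
      ∀ v, F v = ∑ i, ⟪ζ i, v⟫_ℂ • ζ i := by
  classical
  have hFF : ∀ v, F (F v) = F v := fun v => congrArg (fun T : E →L[ℂ] E => T v) hF
  have hFi : ∀ u v, ⟪F u, v⟫_ℂ = ⟪u, F v⟫_ℂ := fun u v => by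
    rw [← adjoint_inner_right, hFa]
  have h0 : ∀ x, x ≠ 1 → ∀ v, F (R x (F v)) = 0 := fun x hx v => mul_zero_of_conj hU (hFo x hx) v
  obtain ⟨f, ⟨ζ, h1, h2⟩, hmax⟩ := exists_max (T := ∑ k, ‖ξ k‖ ^ 2)
    (fun m => ∃ u : Fin m → E, Orthonormal ℂ u ∧ ∀ i, F (u i) = u i)
    ⟨fun i => i.elim0, ⟨fun i => i.elim0, fun i => i.elim0⟩, fun i => i.elim0⟩ (by
      rintro m ⟨u, hu, huF⟩
      refine wsys_card hU hf (u := u) ⟨fun p => by rw [hU.norm_map, hu.1], ?_⟩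
      rintro ⟨i, x⟩ ⟨j, y⟩ hne
      simp only
      by_cases hxy : x = y
      · rw [hxy, hU.inner_map]
        refine hu.2 fun hij => hne ?_
        rw [hxy, hij]
      · rw [hU.inner_left, ← hU.mul_apply, ← huF i, ← huF j, hFi,
          h0 _ (fun h1 => hxy (inv_mul_eq_one.mp h1)), inner_zero_right])
  refine ⟨f, ζ, h1, h2, fun v => ?_⟩
  by_contra hne
  obtain ⟨w, hw⟩ : ∃ w, w = F v - ∑ i, ⟪ζ i, v⟫_ℂ • ζ i := ⟨_, rfl⟩
  have hw0 : w ≠ 0 := by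
    rw [hw]; exact sub_ne_zero.mpr hne
  have hwF : F w = w := by
    rw [hw, map_sub, hFF, map_sum]
    congr 1
    refine Finset.sum_congr rfl fun i _ => ?_
    rw [map_smul, h2]
  have hwo : ∀ i, ⟪ζ i, w⟫_ℂ = 0 := by
    intro i
    rw [hw, inner_sub_right, h1.inner_right_fintype, ← hFi, h2, sub_self]
  have hn : ‖w‖ ≠ 0 := norm_ne_zero_iff.mpr hw0
  refine hmax ⟨Fin.snoc ζ (((‖w‖ : ℝ) : ℂ)⁻¹ • w), orthonormal_snoc h1 ?_ fun i => ?_, fun i => ?_⟩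
  · rw [norm_smul, norm_inv, Complex.norm_real, norm_norm, inv_mul_cancel₀ hn]
  · rw [inner_smul_right, hwo, mul_zero]
  · refine Fin.lastCases ?_ (fun i => ?_) i
    · rw [Fin.snoc_last, map_smul, hwF]
    · rw [Fin.snoc_castSucc, h2]

/-- Two commuting projections of finite rank with nonzero product have a large matrix
coefficient. -/
theorem overlap {f : ℕ} {A B : E →L[ℂ] E} {a b : Fin f → E} (ha : Orthonormal ℂ a)
    (hb : Orthonormal ℂ b) (hA : A * A = A) (hB : B * B = B) (hAB : A * B = B * A)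
    (hA' : ∀ v, A v = ∑ i, ⟪a i, v⟫_ℂ • a i) (hB' : ∀ v, B v = ∑ i, ⟪b i, v⟫_ℂ • b i)
    (h : A * B ≠ 0) : ∃ i j, 1 / (2 * (f : ℝ)) ≤ ‖⟪a i, b j⟫_ℂ‖ := by
  by_contra hn
  push Not at hn
  obtain ⟨v, hv⟩ : ∃ v, (A * B) v ≠ 0 := by
    by_contra h1
    push Not at h1
    exact h (ContinuousLinearMap.ext fun v => by rw [h1]; rfl)
  obtain ⟨u, hu⟩ : ∃ u, u = (A * B) v := ⟨_, rfl⟩
  rw [← hu] at hv
  have hAu : A u = u := by
    rw [hu]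
    change (A * (A * B)) v = _
    rw [← mul_assoc, hA]
  have hBu : B u = u := by
    rw [hu, hAB]
    change (B * (B * A)) v = _
    rw [← mul_assoc, hB]
  have h1 : ⟪u, u⟫_ℂ = ∑ i, ∑ j, (starRingEnd ℂ) ⟪a i, u⟫_ℂ * (⟪b j, u⟫_ℂ * ⟪a i, b j⟫_ℂ) := by
    have e : ⟪u, u⟫_ℂ = ⟪A u, B u⟫_ℂ := by rw [hAu, hBu]
    rw [e, hA' u, hB' u, sum_inner]
    refine Finset.sum_congr rfl fun i _ => ?_
    rw [inner_smul_left, inner_sum, Finset.mul_sum]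
    refine Finset.sum_congr rfl fun j _ => ?_
    rw [inner_smul_right]
  have hf : 0 < (f : ℝ) := by
    have : f ≠ 0 := by
      rintro rfl
      refine hv ?_
      rw [← hAu, hA' u]
      simp
    positivity
  obtain ⟨c, hc⟩ : ∃ c : ℝ, c = ∑ i, ‖⟪a i, u⟫_ℂ‖ := ⟨_, rfl⟩
  obtain ⟨d, hd⟩ : ∃ d : ℝ, d = ∑ j, ‖⟪b j, u⟫_ℂ‖ := ⟨_, rfl⟩
  have hc0 : 0 ≤ c := by rw [hc]; positivity
  have hd0 : 0 ≤ d := by rw [hd]; positivity
  have h2 : ‖u‖ ^ 2 ≤ 1 / (2 * (f : ℝ)) * (c * d) := by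
    have e1 : ‖u‖ ^ 2 = ‖⟪u, u⟫_ℂ‖ := by
      rw [inner_self_eq_norm_sq_to_K]
      simp
    rw [e1, h1]
    calc _ ≤ ∑ i, ∑ j, ‖⟪a i, u⟫_ℂ‖ * (‖⟪b j, u⟫_ℂ‖ * (1 / (2 * (f : ℝ)))) := by
          refine (norm_sum_le _ _).trans (Finset.sum_le_sum fun i _ => ?_)
          refine (norm_sum_le _ _).trans (Finset.sum_le_sum fun j _ => ?_)
          rw [norm_mul, norm_mul, RCLike.norm_conj]
          have := (hn i j).le
          gcongr
      _ = 1 / (2 * (f : ℝ)) * (c * d) := by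
          rw [hc, hd, Finset.sum_mul_sum, Finset.mul_sum]
          refine Finset.sum_congr rfl fun i _ => ?_
          rw [Finset.mul_sum]
          refine Finset.sum_congr rfl fun j _ => ?_
          ring
  have h3 : c ^ 2 ≤ f * ‖u‖ ^ 2 := by
    have e2 : c ^ 2 ≤ (Finset.univ : Finset (Fin f)).card * ∑ i, ‖⟪a i, u⟫_ℂ‖ ^ 2 := by
      rw [hc]
      exact sq_sum_le_card_mul_sum_sq
    rw [Finset.card_univ, Fintype.card_fin] at e2
    have e3 := ha.sum_inner_products_le (x := u) (s := Finset.univ)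
    exact e2.trans (by gcongr)
  have h4 : d ^ 2 ≤ f * ‖u‖ ^ 2 := by
    have e2 : d ^ 2 ≤ (Finset.univ : Finset (Fin f)).card * ∑ i, ‖⟪b i, u⟫_ℂ‖ ^ 2 := by
      rw [hd]
      exact sq_sum_le_card_mul_sum_sq
    rw [Finset.card_univ, Fintype.card_fin] at e2
    have e3 := hb.sum_inner_products_le (x := u) (s := Finset.univ)
    exact e2.trans (by gcongr)
  have h5 : c * d ≤ f * ‖u‖ ^ 2 := by nlinarith [sq_nonneg (c - d)]
  have h6 : 0 < ‖u‖ ^ 2 := by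
    have := norm_pos_iff.mpr hv
    positivity
  have h7 : 1 / (2 * (f : ℝ)) * (c * d) ≤ 1 / (2 * (f : ℝ)) * (f * ‖u‖ ^ 2) := by gcongr
  have h8 : 1 / (2 * (f : ℝ)) * (f * ‖u‖ ^ 2) = ‖u‖ ^ 2 / 2 := by
    field_simp
  linarith

/-- **END-T, core.** -/
theorem end_core_t {ι : Type*} [Fintype ι] {ξ : ι → E} (hU : URep R) (hf : IsFrame R ξ)
    (hV : URep V) (hVR : ∀ g x, V g * R x = R x * V g) {F : E →L[ℂ] E} (hF : F * F = F)
    (hFa : adjoint F = F) (hF0 : F ≠ 0) (hFo : ∀ x, x ≠ 1 → F * (R x * F * R x⁻¹) = 0)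
    (hFc : ∀ g x, (V g * F * V g⁻¹) * (R x * F * R x⁻¹) = (R x * F * R x⁻¹) * (V g * F * V g⁻¹)) :
    ∃ (r : ℕ) (ζ : Fin r → E) (κ : ℝ), 0 < κ ∧ (∀ i, ‖ζ i‖ = 1) ∧
      ∀ g, ∃ i j x, κ ≤ ‖⟪V g (ζ i), R x (ζ j)⟫_ℂ‖ := by
  classical
  obtain ⟨f, z, hz1, hz2, hz3⟩ := exists_onb hU hf hF hFa hFo
  obtain ⟨w, hw1, hFw⟩ := exists_unit hF hF0
  obtain ⟨G, hG⟩ : ∃ G : Γ → (E →L[ℂ] E), G = fun g => V g * F * V g⁻¹ := ⟨_, rfl⟩
  have hGi : ∀ g, G g * G g = G g := fun g => by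
    rw [hG]
    simp only
    rw [← conj_mul hV, hF]
  have hGa : ∀ g, adjoint (G g) = G g := fun g => by
    rw [hG]
    simp only
    rw [← star_eq_adjoint, star_mul, star_mul, star_eq_adjoint, star_eq_adjoint, star_eq_adjoint,
      hV.adj, hV.adj, inv_inv, hFa, mul_assoc]
  have hinv : ∀ x : X, R x⁻¹ * R x = 1 := fun x => by rw [← hU.mul, inv_mul_cancel, hU.one]
  have hinv' : ∀ x : X, R x * R x⁻¹ = 1 := fun x => by rw [← hU.mul, mul_inv_cancel, hU.one]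
  have hcomm : ∀ g x, R x * G g * R x⁻¹ = V g * (R x * F * R x⁻¹) * V g⁻¹ := by
    intro g x
    rw [hG]
    simp only
    calc R x * (V g * F * V g⁻¹) * R x⁻¹ = (R x * V g) * F * (V g⁻¹ * R x⁻¹) := by
          simp only [mul_assoc]
      _ = (V g * R x) * F * (R x⁻¹ * V g⁻¹) := by rw [hVR, hVR]
      _ = _ := by simp only [mul_assoc]
  have hGc : ∀ g h x, G g * (R x * G h * R x⁻¹) = (R x * G h * R x⁻¹) * G g := by
    intro g h x
    have e1 : G g = V h * G (h⁻¹ * g) * V h⁻¹ := by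
      rw [hG]
      simp only
      rw [mul_inv_rev, inv_inv, hV.mul, hV.mul]
      have e2 : V h * V h⁻¹ = 1 := by rw [← hV.mul, mul_inv_cancel, hV.one]
      calc V g * F * V g⁻¹ = (V h * V h⁻¹) * V g * F * V g⁻¹ * (V h * V h⁻¹) := by
            rw [e2, one_mul, mul_one]
        _ = _ := by simp only [mul_assoc]
    rw [hcomm, e1, ← conj_mul hV, ← conj_mul hV]
    congr 2
    rw [hG]
    exact hFc _ _
  have hadjR : ∀ x (A : E →L[ℂ] E), adjoint (R x * A * R x⁻¹) = R x * adjoint A * R x⁻¹ := by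
    intro x A
    rw [← star_eq_adjoint, star_mul, star_mul, star_eq_adjoint, star_eq_adjoint, star_eq_adjoint,
      hU.adj, hU.adj, inv_inv, mul_assoc]
  have hGw : ∀ g, G g (V g w) = V g w := fun g => by
    rw [hG]
    change V g (F (V g⁻¹ (V g w))) = _
    rw [hV.inv_apply, hFw]
  obtain ⟨m, ⟨s, hs⟩, hmax⟩ := exists_max (T := ∑ k, ‖ξ k‖ ^ 2)
    (fun m => ∃ s : Fin m → Γ, ∀ i j x, (i ≠ j ∨ x ≠ 1) → G (s i) * (R x * G (s j) * R x⁻¹) = 0)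
    ⟨fun i => i.elim0, fun i => i.elim0⟩ (by
      rintro m ⟨s, hs⟩
      refine wsys_card hU hf (u := fun i => V (s i) w) ⟨fun p => by
        simp only
        rw [hU.norm_map, hV.norm_map, hw1], ?_⟩
      rintro ⟨i, x⟩ ⟨j, y⟩ hne
      simp only
      rw [hU.inner_left, ← hU.mul_apply, ← hGw (s i), ← hGw (s j), ← adjoint_inner_right, hGa,
        mul_zero_of_conj hU (hs i j (x⁻¹ * y) ?_), inner_zero_right]
      by_contra h1
      push Not at h1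
      refine hne ?_
      rw [h1.1, inv_mul_eq_one.mp h1.2])
  have hex : ∀ g, ∃ i x, G g * (R x * G (s i) * R x⁻¹) ≠ 0 := by
    intro g
    by_contra hn
    push Not at hn
    refine hmax ⟨Fin.snoc s g, fun i j x => ?_⟩
    refine Fin.lastCases ?_ (fun i => ?_) i
    · refine Fin.lastCases ?_ (fun j => ?_) j
      · intro h1
        have hx : x ≠ 1 := by
          rcases h1 with h1 | h1
          · exact absurd rfl h1
          · exact h1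
        rw [Fin.snoc_last, hcomm]
        have e1 : G g = V g * F * V g⁻¹ := by rw [hG]
        rw [e1, ← conj_mul hV, hFo x hx, mul_zero, zero_mul]
      · intro _
        rw [Fin.snoc_last, Fin.snoc_castSucc]
        exact hn j x
    · refine Fin.lastCases ?_ (fun j => ?_) j
      · intro _
        rw [Fin.snoc_last, Fin.snoc_castSucc]
        have e1 := congrArg adjoint (hn i x⁻¹)
        rw [map_zero, ← star_eq_adjoint, star_mul, star_eq_adjoint, star_eq_adjoint, hGa, hadjR,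
          hGa, inv_inv] at e1
        calc G (s i) * (R x * G g * R x⁻¹)
            = (R x * R x⁻¹) * G (s i) * (R x * G g * R x⁻¹) := by rw [hinv', one_mul]
          _ = R x * (R x⁻¹ * G (s i) * R x * G g) * R x⁻¹ := by simp only [mul_assoc]
          _ = 0 := by rw [e1, mul_zero, zero_mul]
      · intro hij
        rw [Fin.snoc_castSucc, Fin.snoc_castSucc]
        refine hs i j x ?_
        rcases hij with h1 | h1
        · exact Or.inl fun h2 => h1 (by rw [h2])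
        · exact Or.inr h1
  -- the vectors
  obtain ⟨e⟩ : Nonempty (Fin f ⊕ (Fin m × Fin f) ≃ Fin (f + m * f)) :=
    ⟨((Equiv.refl _).sumCongr finProdFinEquiv).trans finSumFinEquiv⟩
  obtain ⟨Z, hZ⟩ : ∃ Z : Fin f ⊕ (Fin m × Fin f) → E,
      Z = Sum.elim z (fun p => V (s p.1) (z p.2)) := ⟨_, rfl⟩
  have hf0 : f ≠ 0 := by
    rintro rfl
    have := hz3 w
    rw [hFw] at this
    simp only [Finset.univ_eq_empty, Finset.sum_empty] at this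
    rw [this, norm_zero] at hw1
    exact zero_ne_one hw1
  have hfp : 0 < (f : ℝ) := by positivity
  refine ⟨f + m * f, fun i => Z (e.symm i), 1 / (2 * (f : ℝ)), by positivity, fun i => ?_,
    fun g => ?_⟩
  · simp only
    rcases e.symm i with i | p
    · rw [hZ]; exact hz1.1 i
    · rw [hZ]
      change ‖V (s p.1) (z p.2)‖ = 1
      rw [hV.norm_map, hz1.1]
  · obtain ⟨i, x, hix⟩ := hex g
    obtain ⟨a, b, hab⟩ := overlap (f := f) (A := G g) (B := R x * G (s i) * R x⁻¹)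
      (a := fun a => V g (z a)) (b := fun b => R x (V (s i) (z b)))
      (ha := ⟨fun a => by simp only; rw [hV.norm_map, hz1.1], fun a b hab => by
        simp only; rw [hV.inner_map]; exact hz1.2 hab⟩)
      (hb := ⟨fun a => by simp only; rw [hU.norm_map, hV.norm_map, hz1.1], fun a b hab => by
        simp only; rw [hU.inner_map, hV.inner_map]; exact hz1.2 hab⟩)
      (hA := hGi g) (hB := by rw [← conj_mul hU, hGi]) (hAB := hGc g (s i) x)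
      (hA' := fun v => by
        have e1 : G g v = V g (F (V g⁻¹ v)) := by rw [hG]; rfl
        rw [e1, hz3, map_sum]
        refine Finset.sum_congr rfl fun a _ => ?_
        rw [map_smul, hV.inner_left])
      (hB' := fun v => by
        have e1 : (R x * G (s i) * R x⁻¹) v = R x (V (s i) (F (V (s i)⁻¹ (R x⁻¹ v)))) := by
          rw [hG]; rfl
        rw [e1, hz3, map_sum, map_sum]
        refine Finset.sum_congr rfl fun a _ => ?_
        rw [map_smul, map_smul, hU.inner_left, hV.inner_left])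
      (h := hix)
    refine ⟨e (Sum.inl a), e (Sum.inr (i, b)), x, ?_⟩
    simp only [Equiv.symm_apply_apply]
    rw [hZ]
    exact hab

/-- **END-T** for a good family. -/
theorem Good.end_t {ι : Type*} [Fintype ι] {ξ : ι → E} (hU : URep R) (hf : IsFrame R ξ)
    (hne : ∃ k, ξ k ≠ 0) (hV : URep V) (hVR : ∀ g x, V g * R x = R x * V g)
    {PP BB : Set (E →L[ℂ] E)} {N : Set X} (h : Good R V PP BB N) (hN : ∀ x ∈ N, x = 1) :
    ∃ (r : ℕ) (ζ : Fin r → E) (κ : ℝ), 0 < κ ∧ (∀ i, ‖ζ i‖ = 1) ∧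
      ∀ g, ∃ i j x, κ ≤ ‖⟪V g (ζ i), R x (ζ j)⟫_ℂ‖ := by
  obtain ⟨k, hk⟩ := hne
  obtain ⟨F, hF, hFξ⟩ := h.nd (ξ k) hk
  have hF1 := h.sub hF
  have hF0 : F ≠ 0 := fun h1 => hFξ (by rw [h1]; rfl)
  exact end_core_t hU hf hV hVR (h.idem F hF1) (h.adj F hF1) hF0
    (fun x hx => h.orth F hF x fun h1 => hx (hN x h1))
    (fun g x => h.comm _ (h.cV g F hF1) _ (h.cR x F hF1))

end abs

section sr

open Vale.Agent.P092.SR

variable {Γ ℋ : Type} [Group Γ] [NormedAddCommGroup ℋ] [InnerProductSpace ℂ ℋ] [CompleteSpace ℋ]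

/-- The good family of the four covariant families. -/
theorem good_sr {H₁ H₂ ι : Type} [Group H₁] [Group H₂] [TopologicalSpace H₁] [TopologicalSpace H₂]
    [Fintype ι] (hH₁ : GoodGrp H₁) (hH₂ : GoodGrp H₂) {V R₁ R₂ : Γ →* (ℋ →L[ℂ] ℋ)} {ξ : ι → ℋ}
    (hT : Tri V R₁ R₂ ξ)
    {p₁ q₁ q₁' : Γ →* H₁} {p₂ q₂ q₂' : Γ →* H₂} {sc sc' : Set (ℋ →L[ℂ] ℋ)}
    (hsc : ∀ g, R₂ g ∈ sc) (hsc' : ∀ g, R₁ g ∈ sc')
    {P₁ P₁' : Set H₁ → (ℋ →L[ℂ] ℋ)} {P₂ P₂' : Set H₂ → (ℋ →L[ℂ] ℋ)}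
    (h₁ : PFam p₁ q₁ V R₁ sc P₁) (h₂ : PFam p₂ q₂ V R₁ sc P₂)
    (h₁' : PFam p₁ q₁' V R₂ sc' P₁') (h₂' : PFam p₂ q₂' V R₂ sc' P₂')
    (c12 : ∀ C D, CO C → CO D → P₁ C * P₂ D = P₂ D * P₁ C)
    (c12' : ∀ C D, CO C → CO D → P₁' C * P₂' D = P₂' D * P₁' C)
    (d11 : ∀ C D, CO C → CO D → P₁ C * P₁' D = P₁' D * P₁ C)
    (d12 : ∀ C D, CO C → CO D → P₁ C * P₂' D = P₂' D * P₁ C)
    (d21 : ∀ C D, CO C → CO D → P₂ C * P₁' D = P₁' D * P₂ C)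
    (d22 : ∀ C D, CO C → CO D → P₂ C * P₂' D = P₂' D * P₂ C)
    (hK : ∃ (K₁ : Subgroup H₁) (K₂ : Subgroup H₂), COS K₁ ∧ COS K₂ ∧
      ∀ g, q₁ g ∈ K₁ → q₂ g ∈ K₂ → g = 1)
    (hK' : ∃ (K₁ : Subgroup H₁) (K₂ : Subgroup H₂), COS K₁ ∧ COS K₂ ∧
      ∀ g, q₁' g ∈ K₁ → q₂' g ∈ K₂ → g = 1) :
    ∃ (PP BB : Set (ℋ →L[ℂ] ℋ)) (N : Set (Γ × Γ)),
      Good (RR R₁ R₂) (fun g => V g) PP BB N ∧ ∀ x ∈ N, x = 1 := by
  haveI := hH₁.top
  haveI := hH₂.top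
  obtain ⟨K₁, K₂, a1, a2, a3⟩ := hK
  obtain ⟨K₁', K₂', a1', a2', a3'⟩ := hK'
  have hU := RR_urep hT
  have hV := Tri.V_urep hT
  have i1 : ∀ g, R₁ g * R₁ g⁻¹ = 1 := fun g => by rw [← map_mul, mul_inv_cancel, map_one]
  have i2 : ∀ g, R₂ g * R₂ g⁻¹ = 1 := fun g => by rw [← map_mul, mul_inv_cancel, map_one]
  have covL : ∀ {H : Type} [Group H] [TopologicalSpace H] {p q : Γ →* H}
      {P : Set H → (ℋ →L[ℂ] ℋ)}, PFam p q V R₁ sc P → ∀ (x : Γ × Γ) (C : Set H), CO C →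
      RR R₁ R₂ x * P C * RR R₁ R₂ x⁻¹ = P ((fun y => y * (q x.1)⁻¹) '' C) := by
    intro H _ _ p q P h x C hC
    have e1 : R₂ x.2 * P C = P C * R₂ x.2 := h.comm _ (hsc _) C hC
    rw [RR, RR, Prod.fst_inv, Prod.snd_inv, ← h.covT x.1 C hC]
    calc R₁ x.1 * R₂ x.2 * P C * (R₁ x.1⁻¹ * R₂ x.2⁻¹)
        = R₁ x.1 * (R₂ x.2 * P C) * (R₁ x.1⁻¹ * R₂ x.2⁻¹) := by simp only [mul_assoc]
      _ = R₁ x.1 * P C * (R₂ x.2 * (R₂ x.2⁻¹ * R₁ x.1⁻¹)) := by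
          rw [e1, hT.comm₁₂]; simp only [mul_assoc]
      _ = R₁ x.1 * P C * R₁ x.1⁻¹ := by
          rw [← mul_assoc (R₂ x.2), i2, one_mul]
  have covR : ∀ {H : Type} [Group H] [TopologicalSpace H] {p q : Γ →* H}
      {P : Set H → (ℋ →L[ℂ] ℋ)}, PFam p q V R₂ sc' P → ∀ (x : Γ × Γ) (C : Set H), CO C →
      RR R₁ R₂ x * P C * RR R₁ R₂ x⁻¹ = P ((fun y => y * (q x.2)⁻¹) '' C) := by
    intro H _ _ p q P h x C hC
    have e1 : R₁ x.1 * P C = P C * R₁ x.1 := h.comm _ (hsc' _) C hC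
    rw [RR, RR, Prod.fst_inv, Prod.snd_inv, ← h.covT x.2 C hC]
    calc R₁ x.1 * R₂ x.2 * P C * (R₁ x.1⁻¹ * R₂ x.2⁻¹)
        = R₂ x.2 * (R₁ x.1 * P C) * (R₁ x.1⁻¹ * R₂ x.2⁻¹) := by
          rw [hT.comm₁₂]; simp only [mul_assoc]
      _ = R₂ x.2 * P C * (R₁ x.1 * (R₁ x.1⁻¹ * R₂ x.2⁻¹)) := by
          rw [e1]; simp only [mul_assoc]
      _ = R₂ x.2 * P C * R₂ x.2⁻¹ := by
          rw [← mul_assoc (R₁ x.1), i1, one_mul]
  have G₁ := (PFam.cov hH₁ h₁ (r := fun x : Γ × Γ => q₁ x.1) (covL h₁)).good K₁ a1.1 a1.2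
  have G₂ := (PFam.cov hH₂ h₂ (r := fun x : Γ × Γ => q₂ x.1) (covL h₂)).good K₂ a2.1 a2.2
  have G₁' := (PFam.cov hH₁ h₁' (r := fun x : Γ × Γ => q₁' x.2) (covR h₁')).good K₁' a1'.1 a1'.2
  have G₂' := (PFam.cov hH₂ h₂' (r := fun x : Γ × Γ => q₂' x.2) (covR h₂')).good K₂' a2'.1 a2'.2
  have g12 := G₁.mul hU hV G₂ (by
    rintro p ⟨C, a1, a2, rfl⟩ q ⟨D, b1, b2, rfl⟩
    exact c12 C D ⟨a1, a2⟩ ⟨b1, b2⟩)
  have g34 := G₁'.mul hU hV G₂' (by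
    rintro p ⟨C, a1, a2, rfl⟩ q ⟨D, b1, b2, rfl⟩
    exact c12' C D ⟨a1, a2⟩ ⟨b1, b2⟩)
  have g := g12.mul hU hV g34 (by
    rintro p ⟨_, ⟨C, a1, a2, rfl⟩, _, ⟨D, b1, b2, rfl⟩, rfl⟩ q
      ⟨_, ⟨C', a3, a4, rfl⟩, _, ⟨D', b3, b4, rfl⟩, rfl⟩
    have e13 := d11 C C' ⟨a1, a2⟩ ⟨a3, a4⟩
    have e14 := d12 C D' ⟨a1, a2⟩ ⟨b3, b4⟩
    have e23 := d21 D C' ⟨b1, b2⟩ ⟨a3, a4⟩
    have e24 := d22 D D' ⟨b1, b2⟩ ⟨b3, b4⟩
    generalize P₁ C = p1 at *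
    generalize P₂ D = p2 at *
    generalize P₁' C' = p3 at *
    generalize P₂' D' = p4 at *
    have c1 : Commute p1 (p3 * p4) := Commute.mul_right e13 e14
    have c2 : Commute p2 (p3 * p4) := Commute.mul_right e23 e24
    exact Commute.mul_left c1 c2)
  refine ⟨_, _, _, g, ?_⟩
  rintro x ⟨⟨a, b⟩, ⟨c, d⟩⟩
  exact Prod.ext (a3 _ a b) (a3' _ c d)

/-- **END-T in the letters of `SR/Defs`**: any weight of the frame (all amplifications). -/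
theorem end_sr_t {H₁ H₂ ι : Type} [Group H₁] [Group H₂] [TopologicalSpace H₁]
    [TopologicalSpace H₂] [Fintype ι] (hH₁ : GoodGrp H₁) (hH₂ : GoodGrp H₂)
    {V R₁ R₂ : Γ →* (ℋ →L[ℂ] ℋ)} {ξ : ι → ℋ} (hT : Tri V R₁ R₂ ξ)
    {p₁ q₁ q₁' : Γ →* H₁} {p₂ q₂ q₂' : Γ →* H₂} {sc sc' : Set (ℋ →L[ℂ] ℋ)}
    (hsc : ∀ g, R₂ g ∈ sc) (hsc' : ∀ g, R₁ g ∈ sc')
    {P₁ P₁' : Set H₁ → (ℋ →L[ℂ] ℋ)} {P₂ P₂' : Set H₂ → (ℋ →L[ℂ] ℋ)}
    (h₁ : PFam p₁ q₁ V R₁ sc P₁) (h₂ : PFam p₂ q₂ V R₁ sc P₂)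
    (h₁' : PFam p₁ q₁' V R₂ sc' P₁') (h₂' : PFam p₂ q₂' V R₂ sc' P₂')
    (c12 : ∀ C D, CO C → CO D → P₁ C * P₂ D = P₂ D * P₁ C)
    (c12' : ∀ C D, CO C → CO D → P₁' C * P₂' D = P₂' D * P₁' C)
    (d11 : ∀ C D, CO C → CO D → P₁ C * P₁' D = P₁' D * P₁ C)
    (d12 : ∀ C D, CO C → CO D → P₁ C * P₂' D = P₂' D * P₁ C)
    (d21 : ∀ C D, CO C → CO D → P₂ C * P₁' D = P₁' D * P₂ C)
    (d22 : ∀ C D, CO C → CO D → P₂ C * P₂' D = P₂' D * P₂ C)
    (hK : ∃ (K₁ : Subgroup H₁) (K₂ : Subgroup H₂), COS K₁ ∧ COS K₂ ∧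
      ∀ g, q₁ g ∈ K₁ → q₂ g ∈ K₂ → g = 1)
    (hK' : ∃ (K₁ : Subgroup H₁) (K₂ : Subgroup H₂), COS K₁ ∧ COS K₂ ∧
      ∀ g, q₁' g ∈ K₁ → q₂' g ∈ K₂ → g = 1) :
    ∃ (r : ℕ) (ζ : Fin r → ℋ) (κ : ℝ), 0 < κ ∧ (∀ i, ‖ζ i‖ = 1) ∧
      ∀ g, ∃ i j a b, κ ≤ ‖⟪V g (ζ i), R₁ a (R₂ b (ζ j))⟫_ℂ‖ := by
  obtain ⟨PP, BB, N, hG, hN⟩ := good_sr hH₁ hH₂ hT hsc hsc' h₁ h₂ h₁' h₂' c12 c12' d11 d12 d21
    d22 hK hK'
  obtain ⟨r, ζ, κ, a1, a2, a3⟩ := hG.end_t (RR_urep hT) hT.frame hT.ne (Tri.V_urep hT)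
    (fun g x => by
      change V g * (R₁ x.1 * R₂ x.2) = R₁ x.1 * R₂ x.2 * V g
      rw [← mul_assoc, hT.comm₁, mul_assoc, hT.comm₂, mul_assoc]) hN
  refine ⟨r, ζ, κ, a1, a2, fun g => ?_⟩
  obtain ⟨i, j, x, hx⟩ := a3 g
  exact ⟨i, j, x.1, x.2, hx⟩

end sr

end Vale.Agent.P092.H828
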